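import Vale.Agent.P321.H35.State

/-!
LB2: consequences and inheritance of the slip property.
-/

namespace Vale.Agent.P321.LB2

open Filter Topology

/-- **(L1), general form.** -/
theorem ev_kap_gen (ε η D : ℝ) (hη : ε / 2 < η) : ∀ᶠ N : ℝ in atTop,
    ∀ (Y : Al) (K : ℕ), MA.Prob Y → L1Str.Slip (MA.str (G := FreeMonoid Bool)) Y K →
      (K : ℝ) ≤ N ^ (1 + ε) → ∀ t : ℕ, 1 ≤ t → (t : ℝ) ≤ N ^ D →
      ‖(1 - Y) * Y ^ t‖ ≤ N ^ η * Real.sqrt (N / t) := by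
  have hδ : 0 < 2 * η - ε := by linarith
  have e1 : ∀ᶠ N : ℝ in atTop, 512 * (|D| * Real.log N + 2) ≤ N ^ (2 * η - ε) := by
    have h1 : (fun t : ℝ => 512 * (|D| * Real.log t + 2)) =o[atTop]
        (fun t : ℝ => t ^ (2 * η - ε)) := by
      have h2 : (fun _ : ℝ => (2:ℝ)) =o[atTop] (fun t : ℝ => t ^ (2 * η - ε)) := by
        refine Asymptotics.isLittleO_const_left.mpr (Or.inr ?_)
        exact tendsto_norm_atTop_atTop.comp (tendsto_rpow_atTop hδ)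
      exact (((isLittleO_log_rpow_atTop hδ).const_mul_left _).add h2).const_mul_left _
    filter_upwards [h1.bound one_pos, eventually_ge_atTop 1] with t ht h0
    rw [one_mul, Real.norm_of_nonneg (Real.rpow_nonneg (by linarith) _)] at ht
    exact (le_abs_self _).trans ht
  filter_upwards [e1, eventually_ge_atTop 1] with N hN1 hN Y K hY hS hK t ht1 htD
  have hN0 : 0 < N := by linarith
  have ht0 : (0:ℝ) < t := by exact_mod_cast ht1
  have hK1 : 1 ≤ K := hS.1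
  have hlogN : 0 ≤ Real.log N := Real.log_nonneg hN
  -- the first `s` beyond `t`
  have hex : ∃ s : ℕ, t < K * (4 * s) * 4 ^ s := by
    refine ⟨t, ?_⟩
    have h1 : 1 ≤ 4 ^ t := Nat.one_le_pow _ _ (by norm_num)
    have h2 : 1 * (4 * t) * 1 ≤ K * (4 * t) * 4 ^ t := by gcongr
    omega
  classical
  obtain ⟨s', hs', hmin⟩ : ∃ s : ℕ, t < K * (4 * s) * 4 ^ s ∧
      ∀ r < s, ¬ t < K * (4 * r) * 4 ^ r :=
    ⟨Nat.find hex, Nat.find_spec hex, fun r hr => Nat.find_min hex hr⟩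
  have hs'0 : s' ≠ 0 := by
    rintro rfl
    simp at hs'
  obtain ⟨s, rfl⟩ := Nat.exists_eq_succ_of_ne_zero hs'0
  have hle : K * (4 * s) * 4 ^ s ≤ t := not_lt.1 (hmin s (Nat.lt_succ_self s))
  have hsm : ‖(1 - Y) * Y ^ t‖ ≤ 4 / 2 ^ s := by
    have := (MA.str (G := FreeMonoid Bool)).slip_smooth hY hS s t hle
    exact this
  refine hsm.trans ?_
  -- bound on s
  have hsle : (s : ℝ) ≤ |D| * Real.log N + 1 := by
    rcases Nat.eq_zero_or_pos s with h0 | h0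
    · subst h0
      simp only [Nat.cast_zero]
      positivity
    · have h3 : 4 ^ s ≤ t := by
        have : 1 * (4 * 1) * 4 ^ s ≤ K * (4 * s) * 4 ^ s := by gcongr <;> omega
        have h4 : 1 ≤ 4 ^ s := Nat.one_le_pow _ _ (by norm_num)
        omega
      have h4 : (4:ℝ) ^ s ≤ N ^ D := le_trans (by exact_mod_cast h3) htD
      have h5 := Real.log_le_log (by positivity) h4
      rw [Real.log_pow, Real.log_rpow hN0] at h5
      have h6 : (1:ℝ) ≤ Real.log 4 := by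
        rw [Real.le_log_iff_exp_le (by norm_num)]
        linarith [Real.exp_one_lt_d9]
      have h7 : (s:ℝ) ≤ s * Real.log 4 := le_mul_of_one_le_right (Nat.cast_nonneg _) h6
      have h8 : D * Real.log N ≤ |D| * Real.log N :=
        mul_le_mul_of_nonneg_right (le_abs_self _) hlogN
      linarith
  -- main computation on squares
  have h2s : (0:ℝ) < 2 ^ s := by positivity
  have hsq : (4 / (2:ℝ) ^ s) ^ 2 ≤ (N ^ η * Real.sqrt (N / t)) ^ 2 := by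
    have hr : (N ^ η * Real.sqrt (N / t)) ^ 2 = N ^ (2 * η) * (N / t) := by
      rw [mul_pow, Real.sq_sqrt (by positivity), ← Real.rpow_natCast, ← Real.rpow_mul hN0.le]
      congr 2
      push_cast; ring
    have hl : (4 / (2:ℝ) ^ s) ^ 2 = 16 / 4 ^ s := by
      rw [div_pow, ← pow_mul, mul_comm s 2, pow_mul]; norm_num
    rw [hr, hl]
    have h9 : (t : ℝ) ≤ K * (4 * (s + 1)) * 4 ^ (s + 1) := by
      have := hs'.le
      have h10 : ((t : ℕ) : ℝ) ≤ ((K * (4 * (s + 1)) * 4 ^ (s + 1) : ℕ) : ℝ) := by exact_mod_cast this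
      push_cast at h10
      exact h10
    have h4s : (0:ℝ) < 4 ^ s := by positivity
    rw [← mul_div_assoc, div_le_div_iff₀ h4s ht0]
    have h11 : 512 * ((s:ℝ) + 1) ≤ N ^ (2 * η - ε) := by
      refine le_trans ?_ hN1
      linarith
    have h12 : N ^ (2 * η) * N = N ^ (2 * η - ε) * N ^ (1 + ε) := by
      rw [← Real.rpow_add hN0, ← Real.rpow_add_one hN0.ne']
      congr 1; ring
    rw [h12]
    calc 16 * (t:ℝ) ≤ 16 * (K * (4 * (s + 1)) * 4 ^ (s + 1)) := by linarith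
      _ = 256 * ((s:ℝ) + 1) * K * 4 ^ s := by rw [pow_succ]; ring
      _ ≤ N ^ (2 * η - ε) * N ^ (1 + ε) * 4 ^ s := by
        refine mul_le_mul_of_nonneg_right ?_ h4s.le
        refine mul_le_mul ?_ hK (by positivity) (by positivity)
        have : 0 ≤ (s:ℝ) := Nat.cast_nonneg _
        linarith
  exact le_of_sq_le_sq hsq (by positivity)
where
  le_of_sq_le_sq {a b : ℝ} (h : a ^ 2 ≤ b ^ 2) (hb : 0 ≤ b) : a ≤ b :=
    (le_abs_self a).trans (abs_le_of_sq_le_sq h hb)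

/-- **(L1).** -/
theorem ev_kap (ε D : ℝ) (hε : 0 < ε) : ∀ᶠ N : ℝ in atTop,
    ∀ (Y : Al) (K : ℕ), MA.Prob Y → L1Str.Slip (MA.str (G := FreeMonoid Bool)) Y K →
      (K : ℝ) ≤ N ^ (1 + ε) → ∀ t : ℕ, 1 ≤ t → (t : ℝ) ≤ N ^ D →
      ‖(1 - Y) * Y ^ t‖ ≤ N ^ ε * Real.sqrt (N / t) :=
  ev_kap_gen ε ε D (by linarith)

/-- **(L1) for a state.** -/
theorem ev_St_kap {q ε : ℝ} (h0 : 0 ≤ q) (h1 : q ≤ 1) (D : ℝ) (hε : 0 < ε) :
    ∀ᶠ N : ℝ in atTop, ∀ (E1 E2 : ℝ) (u v : List Bool), St q ε N E1 E2 u v →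
      ∀ t : ℕ, 1 ≤ t → (t : ℝ) ≤ N ^ D →
      ‖(1 - W q u) * W q u ^ t‖ ≤ N ^ ε * Real.sqrt (N / t) := by
  filter_upwards [ev_kap ε D hε] with N hN E1 E2 u v hS t ht htD
  obtain ⟨K, hK, hK2⟩ := hS.slip
  exact hN _ K (W_prob h0 h1 u) hK hK2 t ht htD

/-- **(L2): slip inheritance.** -/
theorem ev_slip_inherit (ε : ℝ) (hε : 0 < ε) (hε1 : ε ≤ 1 / 2) : ∀ᶠ N : ℝ in atTop,
    ∀ (Y Z : Al) (K n : ℕ), MA.Prob Y → ‖Z‖ ≤ 1 →
      L1Str.Slip (MA.str (G := FreeMonoid Bool)) Y K → (K : ℝ) ≤ N ^ (1 + ε) →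
      N ^ (1 / 2 : ℝ) ≤ n → (n : ℝ) ≤ N ^ (50 : ℝ) → ‖Z - Y ^ n‖ ≤ N ^ (-100 : ℝ) →
      ∃ K' : ℕ, L1Str.Slip (MA.str (G := FreeMonoid Bool)) Z K' ∧ (K' : ℝ) ≤ (N * n) ^ (1 + ε) := by
  filter_upwards [ev_kap_gen ε (5 / 8 * ε) 200 (by linarith),
    MA.ev_pow_le 3 (-(ε / 8)) 0 (by linarith), MA.ev_pow_le 4 0 (3 / 2) (by norm_num),
    MA.ev_pow_le 4 (-(47/2)) 0 (by norm_num), eventually_ge_atTop 1] with
    N h1 h2 h3 h4 hN Y Z K n hY hZ hS hK hn1 hn2 hZY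
  have hN0 : 0 < N := by linarith
  rw [Real.rpow_zero] at h2 h3 h4
  have hn0 : (0:ℝ) < n := lt_of_lt_of_le (Real.rpow_pos_of_pos hN0 _) hn1
  have hn1' : 1 ≤ n := by exact_mod_cast hn0
  have hX1 : N ^ (3 / 2 : ℝ) ≤ N * n := by
    have : N ^ (3 / 2 : ℝ) = N * N ^ (1 / 2 : ℝ) := by
      rw [← Real.rpow_one_add' hN0.le (by norm_num)]; norm_num
    rw [this]
    exact mul_le_mul_of_nonneg_left hn1 hN0.le
  have hX4 : 4 ≤ N * n := by linarith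
  have hX0 : 0 < N * n := by linarith
  set X := (N * n) ^ (1 + ε) with hX
  have hXge : N * n ≤ X := by
    rw [hX]
    exact Real.self_le_rpow_of_one_le (by linarith) (by linarith)
  have hXpos : 0 < X := by linarith
  set g := ⌊X⌋₊ with hg
  have g1 : (g : ℝ) ≤ X := Nat.floor_le hXpos.le
  have g2 : X - 1 < (g : ℝ) := Nat.sub_one_lt_floor X
  have g3 : 1 ≤ g := by
    rw [hg, Nat.one_le_floor_iff]; linarith
  have g4 : ((g - 1 : ℕ) : ℝ) = g - 1 := by rw [Nat.cast_sub g3, Nat.cast_one]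
  have g5 : X / 2 ≤ ((g - 1 : ℕ) : ℝ) := by rw [g4]; linarith
  have hXu : X ≤ N ^ (153 / 2 : ℝ) := by
    have : N * n ≤ N ^ (51 : ℝ) := by
      have e : N ^ (51 : ℝ) = N * N ^ (50 : ℝ) := by
        rw [← Real.rpow_one_add' hN0.le (by norm_num)]; norm_num
      rw [e]
      exact mul_le_mul_of_nonneg_left hn2 hN0.le
    calc X ≤ (N ^ (51 : ℝ)) ^ (1 + ε) := Real.rpow_le_rpow hX0.le this (by linarith)
      _ = N ^ (51 * (1 + ε)) := by rw [← Real.rpow_mul hN0.le]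
      _ ≤ N ^ (153 / 2 : ℝ) := Real.rpow_le_rpow_of_exponent_le hN (by linarith)
  have hclose : ∀ j : ℕ, (j : ℝ) ≤ X → MA.l1 (Z ^ j - Y ^ (n * j)) ≤ 1 / 4 := by
    intro j hj
    obtain ⟨_, _, h⟩ := MA.wd_two (X := Z) (Y := Y ^ n) hZ (MA.prob_pow hY n).2.le
      (δ := N ^ (-100 : ℝ)) hZY j
    rw [← pow_mul] at h
    refine h.trans ?_
    calc (j : ℝ) * N ^ (-100 : ℝ) ≤ N ^ (153 / 2 : ℝ) * N ^ (-100 : ℝ) :=
          mul_le_mul_of_nonneg_right (hj.trans hXu) (Real.rpow_nonneg hN0.le _)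
      _ = N ^ (-(47 / 2) : ℝ) := by rw [← Real.rpow_add hN0]; norm_num
      _ ≤ 1 / 4 := by linarith
  have hgpos : (0:ℝ) < ((g - 1 : ℕ) : ℝ) := by linarith
  have hg1 : 1 ≤ g - 1 := by exact_mod_cast hgpos
  have hT1 : 1 ≤ n * (g - 1) := Nat.one_le_iff_ne_zero.2 (by
    intro h
    rcases Nat.mul_eq_zero.1 h with h | h <;> omega)
  have hT2 : ((n * (g - 1) : ℕ) : ℝ) ≤ N ^ (200 : ℝ) := by
    push_cast
    calc (n : ℝ) * ((g - 1 : ℕ) : ℝ) ≤ N ^ (50 : ℝ) * N ^ (153 / 2 : ℝ) := by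
          refine mul_le_mul hn2 ?_ (Nat.cast_nonneg _) (Real.rpow_nonneg hN0.le _)
          rw [g4]; linarith
      _ = N ^ (253 / 2 : ℝ) := by rw [← Real.rpow_add hN0]; norm_num
      _ ≤ N ^ (200 : ℝ) := Real.rpow_le_rpow_of_exponent_le hN (by norm_num)
  refine ⟨g, MA.slip_of_close hY g3 (hclose g g1) (hclose (g - 1) (by rw [g4]; linarith))
    (h1 Y K hY hS hK (n * (g - 1)) hT1 hT2) ?_, g1⟩
  -- `n φ ≤ 1/2`
  have h5 : (n : ℝ) * (N ^ (5 / 8 * ε) * Real.sqrt (N / ((n * (g - 1) : ℕ) : ℝ))) =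
      N ^ (5 / 8 * ε) * Real.sqrt (N * n / ((g - 1 : ℕ) : ℝ)) := by
    have : N * n / ((g - 1 : ℕ) : ℝ) = (n : ℝ) ^ 2 * (N / ((n * (g - 1) : ℕ) : ℝ)) := by
      push_cast
      field_simp
    rw [this, Real.sqrt_mul (by positivity), Real.sqrt_sq hn0.le]
    ring
  rw [h5]
  have h6 : N * n / ((g - 1 : ℕ) : ℝ) ≤ 2 * N ^ (-(3 / 2 * ε)) := by
    rw [div_le_iff₀ hgpos]
    have h7 : X = N * n * (N * n) ^ ε := by
      rw [hX, Real.rpow_one_add' hX0.le (by linarith)]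
    have h8 : N ^ (3 / 2 * ε) ≤ (N * n) ^ ε := by
      rw [Real.rpow_mul hN0.le]
      exact Real.rpow_le_rpow (by positivity) hX1 hε.le
    have h9 : N ^ (-(3 / 2 * ε)) * N ^ (3 / 2 * ε) = 1 := by
      rw [← Real.rpow_add hN0]; simp
    have hp : 0 < N ^ (-(3 / 2 * ε)) := Real.rpow_pos_of_pos hN0 _
    calc N * n = N * n * (N ^ (-(3 / 2 * ε)) * N ^ (3 / 2 * ε)) := by rw [h9, mul_one]
      _ ≤ N * n * (N ^ (-(3 / 2 * ε)) * (N * n) ^ ε) := by gcongr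
      _ = N ^ (-(3 / 2 * ε)) * X := by rw [h7]; ring
      _ ≤ N ^ (-(3 / 2 * ε)) * (2 * ((g - 1 : ℕ) : ℝ)) := by gcongr; linarith
      _ = 2 * N ^ (-(3 / 2 * ε)) * ((g - 1 : ℕ) : ℝ) := by ring
  have h10 : Real.sqrt (N * n / ((g - 1 : ℕ) : ℝ)) ≤ 3 / 2 * N ^ (-(3 / 4 * ε)) := by
    apply Real.sqrt_le_iff.2
    refine ⟨by positivity, h6.trans ?_⟩
    rw [mul_pow, ← Real.rpow_natCast (N ^ (-(3 / 4 * ε))), ← Real.rpow_mul hN0.le]
    have : -(3 / 4 * ε) * ((2 : ℕ) : ℝ) = -(3 / 2 * ε) := by push_cast; ring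
    rw [this]
    refine mul_le_mul_of_nonneg_right (by norm_num) (Real.rpow_nonneg hN0.le _)
  calc N ^ (5 / 8 * ε) * Real.sqrt (N * n / ((g - 1 : ℕ) : ℝ))
      ≤ N ^ (5 / 8 * ε) * (3 / 2 * N ^ (-(3 / 4 * ε))) := by gcongr
    _ = 3 / 2 * N ^ (-(ε / 8)) := by
      rw [mul_left_comm, ← Real.rpow_add hN0]; ring_nf
    _ ≤ 1 / 2 := by linarith

end Vale.Agent.P321.LB2
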