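import Vale.Agent.P321.H35.Main

/-!
LB2: versions uniform in the deletion probability.
-/

namespace Vale.Agent.P321.LB2

open Filter Topology
open scoped unitInterval

/-- **One round, uniform in `q ∈ [0,1]`** -/
def RoundU (ε δ C R0 : ℝ) : Prop := ∀ᶠ N : ℝ in atTop, ∀ q : ℝ, 0 ≤ q → q ≤ 1 →
  ∀ (E1 E2 : ℝ) (u v : List Bool),
  St q ε N E1 E2 u v → E1 ^ 2 ≤ E2 → E2 ≤ E1 → E1 ≤ N ^ (-R0) →
  Real.exp (-(Real.log N) ^ (1 + 1 / 40 : ℝ)) ≤ E2 →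
  ∃ (N' : ℝ) (u' v' : List Bool), N ^ (4 : ℝ) ≤ N' ∧ N' ≤ N ^ (4 + δ) ∧
    St q ε N' (N ^ C * E1 ^ 4) (N ^ C * E1 ^ 4 * E2 ^ 2) u' v'

theorem RoundU.roundOK {ε δ C R0 : ℝ} (h : RoundU ε δ C R0) {q : ℝ} (h0 : 0 ≤ q) (h1 : q ≤ 1) :
    RoundOK q ε δ C R0 := by
  filter_upwards [h] with N hN using hN q h0 h1

/-- slip for all states at once -/
theorem ev_St_kap_uni {ε : ℝ} (D : ℝ) (hε : 0 < ε) :
    ∀ᶠ N : ℝ in atTop, ∀ q : ℝ, 0 ≤ q → q ≤ 1 → ∀ (E1 E2 : ℝ) (u v : List Bool),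
      St q ε N E1 E2 u v → ∀ t : ℕ, 1 ≤ t → (t : ℝ) ≤ N ^ D →
      ‖(1 - W q u) * W q u ^ t‖ ≤ N ^ ε * Real.sqrt (N / t) := by
  filter_upwards [ev_kap ε D hε] with N hN q h0 h1 E1 E2 u v hS t ht htD
  obtain ⟨K, hK, hK2⟩ := hS.slip
  exact hN _ K (W_prob h0 h1 u) hK hK2 t ht htD

end Vale.Agent.P321.LB2
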