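import Vale.Agent.P321.H35.State

/-!
LB2: base states, from the landed level data.
-/

namespace Vale.Agent.P321.LB2

open Filter Topology

/-- level data of every exponent -/
theorem lev_all {q : ℝ} (h0 : 0 < q) (h1 : q < 1) (ε0 R : ℝ) (hε0 : 0 < ε0) :
    ∃ ε a : ℝ, 0 < ε ∧ ε ≤ ε0 ∧ ε ≤ 1 / 1000 ∧ R ≤ a ∧ MA.Lev q ε a := by
  set A : ℕ := ⌈R⌉₊ with hA
  have hAR : R ≤ A := Nat.le_ceil R
  set A' : ℝ := 2 * A + 3 with hA'
  have hA0 : (0 : ℝ) ≤ A := Nat.cast_nonneg _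
  have hA1 : 0 < A' + 1 := by positivity
  set ε : ℝ := min ε0 (1 / (1000 * (A' + 1))) with hεd
  have hε : 0 < ε := lt_min hε0 (by positivity)
  have hεA : ε * (A' + 1) ≤ 1 / 1000 := by
    have : ε ≤ 1 / (1000 * (A' + 1)) := min_le_right _ _
    calc ε * (A' + 1) ≤ 1 / (1000 * (A' + 1)) * (A' + 1) := by gcongr
      _ = 1 / 1000 := by field_simp
  have hε1 : ε ≤ 1 / 1000 := by nlinarith
  have hb : MA.TLev q ε (3 / 4 - ε) (5 / 4 - ε) :=
    Lt.base_TLev_of_overlap h0 h1 (fun ε hε => Cr.base_overlap h0 h1 ε hε) hε (by linarith)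
  have h2 := hb.first h0.le h1.le hε hε1
  have h3 := h2.iter h0.le h1.le hε hε1 hεA (20 * (2 * A + 1)) (by
    push_cast
    rw [hA']
    ring_nf
    linarith only [])
  refine ⟨ε, _, hε, min_le_left _ _, hε1, ?_, h3⟩
  push_cast
  linarith only [hAR, hA0]

/-- **Base states**: for every `R` and `ε`, at every large scale `N`. -/
theorem base_St {q : ℝ} (h0 : 0 < q) (h1 : q < 1) (ε R : ℝ) (hε : 0 < ε) :
    ∀ᶠ N : ℝ in atTop, ∃ u v : List Bool, St q ε N (N ^ (-R)) (N ^ (-R)) u v := by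
  obtain ⟨ε', a, hε', hεε, hε1, hRa, β, B, hβ, hB, hev⟩ :=
    lev_all h0 h1 (ε / 2) (2 * R + 2) (by linarith)
  have hhalf : Tendsto (fun N : ℝ => N / 2) atTop atTop :=
    tendsto_id.atTop_div_const (by norm_num)
  -- exponential smallness
  have hexp : ∀ (p C : ℝ), ∀ᶠ x : ℝ in atTop, C * x ^ p * Real.exp (-x ^ β) ≤ 1 := by
    intro p C
    have f1 : Tendsto (fun x : ℝ => x ^ p * Real.exp (-x ^ β)) atTop (𝓝 0) := by
      have g1 := tendsto_rpow_mul_exp_neg_mul_atTop_nhds_zero (p / β) 1 one_pos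
      have g2 := g1.comp (tendsto_rpow_atTop hβ)
      refine g2.congr' ?_
      filter_upwards [eventually_gt_atTop 0] with x hx
      simp only [Function.comp]
      rw [← Real.rpow_mul hx.le, mul_div_cancel₀ _ hβ.ne']
      ring_nf
    have f2 := f1.const_mul C
    rw [mul_zero] at f2
    filter_upwards [f2.eventually (gt_mem_nhds one_pos)] with x hx
    rw [mul_assoc]
    exact hx.le
  have ev1 := hhalf.eventually hev
  have ev2 := hhalf.eventually (hexp R (4 * 2 ^ R))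
  have ev3 := hhalf.eventually (hexp (1 + ε') 4002)
  have ev4 := hhalf.eventually (MA.ev_pow_le 1000 (1 + ε') (1 + ε) (by linarith))
  have ev5 := hhalf.eventually (MA.ev_pow_le (2 * 2 ^ R) (-(a / 2)) (-R) (by linarith))
  have ev6 : ∀ᶠ x : ℝ in atTop, (4002:ℝ) ≤ 4002 * x ^ (1 + ε') := by
    filter_upwards [eventually_ge_atTop 1] with x hx
    have := Real.one_le_rpow hx (by linarith : (0:ℝ) ≤ 1 + ε')
    linarith
  filter_upwards [ev1, ev2, ev3, ev4, ev5, eventually_ge_atTop 2] with N h2 h3 h4 h5 h6 hN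
  obtain ⟨u, v, Y0, Y1, K, L⟩ := h2
  set x : ℝ := N / 2 with hx
  have hx1 : 1 ≤ x := by rw [hx]; linarith
  have hx0 : 0 < x := by linarith
  have hN0 : 0 < N := by linarith
  have hNx : N = 2 * x := by rw [hx]; ring
  have hNR : N ^ (-R) = 2 ^ (-R) * x ^ (-R) := by
    rw [hNx, Real.mul_rpow (by norm_num) hx0.le]
  have h2R : (2:ℝ) ^ (-R) * 2 ^ R = 1 := by
    rw [← Real.rpow_add (by norm_num)]; simp
  have hxR : x ^ (-R) * x ^ R = 1 := by
    rw [← Real.rpow_add hx0]; simp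
  have h2Rp : 0 < (2:ℝ) ^ (-R) := Real.rpow_pos_of_pos (by norm_num) _
  have hxRp : 0 < x ^ (-R) := Real.rpow_pos_of_pos hx0 _
  have hK1 : 1 ≤ K := L.slip.1
  -- distance
  have hdist : ‖W q v - W q u‖ ≤ N ^ (-R) := by
    have d2 := MA.l1_sub_le_three (W q v) (W q u) Y1 Y0
    have d3 : MA.l1 (Y0 - Y1) ≤ x ^ (-a / 2) := by
      rw [MA.l1_sub_comm]
      have := L.pair.dom.l1_le L.pair.p0.nonneg L.pair.p0.aug L.pair.D0
      rw [Real.sqrt_eq_rpow, ← Real.rpow_mul hx0.le] at this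
      have e : -a * (1 / 2) = -a / 2 := by ring
      rwa [e] at this
    have e0 := L.err0
    have e1 := L.err1
    have e2 : x ^ (-a / 2) * 2 ≤ N ^ (-R) := by
      rw [hNR]
      have e : -a / 2 = -(a / 2) := by ring
      rw [e]
      calc x ^ (-(a / 2)) * 2 = 2 ^ (-R) * (2 * 2 ^ R * x ^ (-(a / 2))) := by
            have : x ^ (-(a / 2)) * 2 = (2 ^ (-R) * 2 ^ R) * (x ^ (-(a / 2)) * 2) := by
              rw [h2R, one_mul]
            rw [this]; ring
        _ ≤ 2 ^ (-R) * x ^ (-R) := mul_le_mul_of_nonneg_left h6 h2Rp.le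
    have e3 : Real.exp (-x ^ β) * 4 ≤ N ^ (-R) := by
      rw [hNR]
      calc Real.exp (-x ^ β) * 4
          = 2 ^ (-R) * x ^ (-R) * (4 * 2 ^ R * x ^ R * Real.exp (-x ^ β)) := by
            have : Real.exp (-x ^ β) * 4 =
                (2 ^ (-R) * 2 ^ R) * (x ^ (-R) * x ^ R) * (Real.exp (-x ^ β) * 4) := by
              rw [h2R, hxR, one_mul, one_mul]
            rw [this]; ring
        _ ≤ 2 ^ (-R) * x ^ (-R) * 1 := by
            refine mul_le_mul_of_nonneg_left ?_ (by positivity)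
            exact h3
        _ = _ := by ring
    change MA.l1 (W q v - W q u) ≤ _
    have hpos := Real.exp_pos (-x ^ β)
    linarith
  have hctx : ∀ M : ℕ, ‖W q u ^ M * (W q v - W q u) * W q u ^ M‖ ≤ N ^ (-R) := by
    intro M
    have hp : MA.Prob (W q u ^ M) := MA.prob_pow (W_prob h0.le h1.le u) M
    change MA.l1 _ ≤ _
    exact (MA.l1_mul_prob_right hp).trans ((MA.l1_mul_prob_left hp).trans hdist)
  refine ⟨u, v, L.ne, L.len.symm, ?_, ?_, fun M _ => hctx M, fun M _ => hctx M⟩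
  · have := L.hi
    rw [hx] at this
    linarith
  · have hs := Lt.slip_near (δ := Real.exp (-x ^ β)) L.pair.p0 (W_prob h0.le h1.le u) L.slip (by
        rw [MA.l1_sub_comm]; exact L.err0) (by
      have hKx : (K : ℝ) ≤ x ^ (1 + ε') := L.slipK
      have hK1' : (1:ℝ) ≤ K := by exact_mod_cast hK1
      calc (4 * (1000 * (K:ℝ)) + 2) * Real.exp (-x ^ β)
          ≤ (4002 * x ^ (1 + ε')) * Real.exp (-x ^ β) := by
            refine mul_le_mul_of_nonneg_right ?_ (Real.exp_pos _).le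
            linarith
        _ ≤ 1 := h4)
    refine ⟨1000 * K, hs, ?_⟩
    push_cast
    calc (1000:ℝ) * K ≤ 1000 * x ^ (1 + ε') := by
          refine mul_le_mul_of_nonneg_left L.slipK (by norm_num)
      _ ≤ x ^ (1 + ε) := h5
      _ ≤ N ^ (1 + ε) := Real.rpow_le_rpow hx0.le (by linarith) (by linarith)

end Vale.Agent.P321.LB2
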