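import Vale.Agent.P321.H35.Recur

/-!
LB2: from states to the sample complexity.
-/

namespace Vale.Agent.P321.LB2

open Filter Topology
open scoped unitInterval

/-- distance of two padded words: lower bound for the number of traces -/
theorem lower_of_close (q : I) {x y : List Bool} (hne : x ≠ y) (hlen : x.length = y.length) {n : ℕ}
    (hn : x.length ≤ n) {m : ℕ} (hm : ∃ est : Estimator n, Reconstructs q n m est) :
    1 ≤ 3 * (m : ℝ) * ‖W q y - W q x‖ := by
  obtain ⟨est, hest⟩ := hm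
  set pad : List Bool := List.replicate (n - x.length) false with hpad
  have hu : (x ++ pad).length = n := by
    rw [List.length_append, hpad, List.length_replicate]; omega
  have hv : (y ++ pad).length = n := by
    rw [List.length_append, hpad, List.length_replicate, ← hlen]; omega
  have hne' : x ++ pad ≠ y ++ pad := fun e => hne (List.append_cancel_right e)
  have key := lower_bound q n m est hest (fun i => (x ++ pad).get (i.cast hu.symm))
    (fun i => (y ++ pad).get (i.cast hv.symm)) (by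
      intro e
      apply hne'
      refine List.ext_get (by rw [hu, hv]) fun i h1 h2 => ?_
      have := congrFun e ⟨i, by rw [← hu]; exact h1⟩
      simpa using this)
  have e1 : List.ofFn (fun i : Fin n => (x ++ pad).get (i.cast hu.symm)) = x ++ pad := by
    refine List.ext_get (by rw [List.length_ofFn, hu]) fun i h1 h2 => ?_
    simp
  have e2 : List.ofFn (fun i : Fin n => (y ++ pad).get (i.cast hv.symm)) = y ++ pad := by
    refine List.ext_get (by rw [List.length_ofFn, hv]) fun i h1 h2 => ?_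
    simp
  rw [e1, e2, W_append, W_append, ← sub_mul] at key
  have d1 : P321.l1 ((W q y - W q x) * W q pad) ≤ ‖W q y - W q x‖ :=
    MA.l1_mul_prob_right (W_prob q.2.1 q.2.2 pad)
  exact key.trans (mul_le_mul_of_nonneg_left d1 (by positivity))

/-- the middle word in its context -/
theorem wd_ctx {G : Type*} [Monoid G] (Y Z : MonoidAlgebra ℝ G) (b : Bool) (M : ℕ) :
    MA.wd Y Z (List.replicate M false ++ b :: List.replicate M false) =
      Y ^ M * (if b then Z else Y) * Y ^ M := by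
  rw [MA.wd_append, MA.wd_cons, MA.wd_replicate, mul_assoc]

/-- from a state to the number of traces -/
theorem St_T_uni (ε : ℝ) (hε1 : ε ≤ 1 / 2) : ∀ᶠ N : ℝ in atTop, ∀ q : I,
    ∀ (E1 E2 : ℝ) (u v : List Bool), St q ε N E1 E2 u v → ∀ n : ℕ, N ^ (2 : ℝ) ≤ n →
      ∀ m : ℕ, (∃ est : Estimator n, Reconstructs q n m est) → 1 ≤ 3 * (m : ℝ) * E1 := by
  filter_upwards [MA.ev_pow_le 5 (1 / 5 + 1 / 2) 1 (by norm_num), eventually_ge_atTop 5] with
    N h1 hN q E1 E2 u v hS n hn m hm
  have hN0 : 0 < N := by linarith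
  rw [Real.rpow_one] at h1
  set M : ℕ := ⌈N ^ (1 / 5 + ε)⌉₊ with hM
  have hM1 : N ^ (1 / 5 + ε) ≤ M := Nat.le_ceil _
  have hM2 : (M : ℝ) ≤ N ^ (1 / 5 + 1 / 2 : ℝ) + 1 := by
    have h2 := Nat.ceil_lt_add_one (Real.rpow_nonneg hN0.le (1 / 5 + ε))
    have h3 : N ^ (1 / 5 + ε) ≤ N ^ (1 / 5 + 1 / 2 : ℝ) :=
      Real.rpow_le_rpow_of_exponent_le (by linarith) (by linarith)
    rw [← hM] at h2
    linarith
  have hp1 : (1:ℝ) ≤ N ^ (1 / 5 + 1 / 2 : ℝ) := Real.one_le_rpow (by linarith) (by norm_num)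
  set lu : List Bool := List.replicate M false ++ false :: List.replicate M false with hlu
  set lv : List Bool := List.replicate M false ++ true :: List.replicate M false with hlv
  have hll : lu.length = lv.length := by simp [hlu, hlv]
  have hlue : lu.length = 2 * M + 1 := by simp [hlu]; ring
  have hne : MA.sub u v lu ≠ MA.sub u v lv := by
    intro e
    have e2 := MA.sub_inj u v hS.len.symm hS.ne lu lv hll e
    rw [hlu, hlv] at e2
    have e3 := List.append_cancel_left e2
    simp at e3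
  have hlen : (MA.sub u v lu).length = (MA.sub u v lv).length := by
    rw [MA.sub_length u v hS.len.symm, MA.sub_length u v hS.len.symm, hll]
  have hle : (MA.sub u v lu).length ≤ n := by
    have h2 : (((MA.sub u v lu).length : ℕ) : ℝ) ≤ n := by
      rw [MA.sub_length u v hS.len.symm, hlue]
      refine le_trans ?_ hn
      push_cast
      have h3 : 2 * (M : ℝ) + 1 ≤ N := by linarith
      calc (2 * (M : ℝ) + 1) * u.length ≤ N * N := by
            refine mul_le_mul h3 hS.hi (Nat.cast_nonneg _) hN0.le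
        _ = N ^ (2 : ℝ) := by rw [← sq]; norm_cast
    exact_mod_cast h2
  have key := lower_of_close q hne hlen hle hm
  have e : W q (MA.sub u v lv) - W q (MA.sub u v lu) =
      W q u ^ M * (W q v - W q u) * W q u ^ M := by
    rw [MA.sub_W, MA.sub_W, hlu, hlv, wd_ctx, wd_ctx]
    simp only [if_true, Bool.false_eq_true, if_false]
    rw [mul_sub, sub_mul]
  rw [e] at key
  exact key.trans (mul_le_mul_of_nonneg_left (hS.e1 M hM1) (by positivity))

theorem St_T (q : I) (ε : ℝ) (hε1 : ε ≤ 1 / 2) : ∀ᶠ N : ℝ in atTop,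
    ∀ (E1 E2 : ℝ) (u v : List Bool), St q ε N E1 E2 u v → ∀ n : ℕ, N ^ (2 : ℝ) ≤ n →
      ∀ m : ℕ, (∃ est : Estimator n, Reconstructs q n m est) → 1 ≤ 3 * (m : ℝ) * E1 := by
  filter_upwards [St_T_uni ε hε1] with N hN using hN q

/-- **Final step**: states at scales of bounded logarithmic gaps give the lower bound. -/
theorem T_of_cover (q : I) {ε A κ κ' : ℝ} (hε1 : ε ≤ 1 / 2) (hA : 0 < A) (hκ0 : 0 ≤ κ)
    (hκ : κ' < κ)
    (h : ∃ a0 c : ℝ, 1 ≤ a0 ∧ 0 < c ∧ ∀ t : ℝ, a0 ≤ t → ∃ a : ℝ, a ≤ t ∧ t ≤ A * a ∧ a0 ≤ a ∧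
      StL q ε a (c * a ^ (1 + κ)) (c * a ^ (1 + κ))) :
    ∃ n0 : ℕ, ∀ n : ℕ, n0 ≤ n →
      (⌈Real.exp (Real.log n ^ (1 + κ'))⌉₊ : ℕ∞) ≤ T q n := by
  obtain ⟨a0, c, ha0, hc0, hcov⟩ := h
  have hlog : Tendsto (fun n : ℕ => Real.log (n : ℝ)) atTop atTop :=
    Real.tendsto_log_atTop.comp tendsto_natCast_atTop_atTop
  have h1 := Real.tendsto_exp_atTop.eventually (St_T q ε hε1)
  obtain ⟨a1, ha1⟩ := Filter.eventually_atTop.1 h1
  set c' : ℝ := c / (2 * A) ^ (1 + κ) with hc'
  have hc'0 : 0 < c' := by positivity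
  -- numerics
  have h2 : ∀ᶠ x : ℝ in atTop, x ^ (1 + κ') + 2 ≤ c' * x ^ (1 + κ) := by
    filter_upwards [MA.ev_pow_le (2 / c') (1 + κ') (1 + κ) (by linarith),
      MA.ev_pow_le (4 / c') 0 (1 + κ) (by linarith)] with x g1 g2
    rw [Real.rpow_zero, mul_one] at g2
    have g3 : 2 * x ^ (1 + κ') ≤ c' * x ^ (1 + κ) := by
      have := mul_le_mul_of_nonneg_left g1 hc'0.le
      rwa [← mul_assoc, mul_div_cancel₀ _ hc'0.ne'] at this
    have g4 : 4 ≤ c' * x ^ (1 + κ) := by
      have := mul_le_mul_of_nonneg_left g2 hc'0.le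
      rwa [mul_div_cancel₀ _ hc'0.ne'] at this
    linarith
  obtain ⟨n0, hn0⟩ := Filter.eventually_atTop.1 ((hlog.eventually h2).and
    ((hlog.eventually_ge_atTop (2 * a0)).and (hlog.eventually_ge_atTop (2 * A * a1))))
  refine ⟨max n0 1, fun n hn => ?_⟩
  obtain ⟨g1, g2, g3⟩ := hn0 n ((le_max_left _ _).trans hn)
  have hn1 : 1 ≤ n := (le_max_right _ _).trans hn
  set L := Real.log (n : ℝ) with hL
  obtain ⟨a, b1, b2, b3, u, v, hS⟩ := hcov (L / 2) (by linarith)
  have hn' : (0:ℝ) < n := by exact_mod_cast hn1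
  have hsz : Real.exp a ^ (2 : ℝ) ≤ n := by
    rw [← Real.exp_mul]
    calc Real.exp (a * 2) ≤ Real.exp L := Real.exp_le_exp.2 (by linarith)
      _ = n := Real.exp_log hn'
  have hL0 : 0 < L := by linarith
  have haL : L ≤ 2 * A * a := by linarith
  have haa1 : a1 ≤ a := by
    have : 2 * A * a1 ≤ 2 * A * a := g3.trans haL
    exact le_of_mul_le_mul_left this (by positivity)
  unfold T
  refine le_iInf₂ fun m hm => ?_
  have key := ha1 a haa1 _ _ u v hS n hsz m hm
  have hfin : Real.exp (L ^ (1 + κ')) ≤ m := by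
    have e1 : c' * L ^ (1 + κ) ≤ c * a ^ (1 + κ) := by
      have e2 : L ^ (1 + κ) ≤ (2 * A) ^ (1 + κ) * a ^ (1 + κ) := by
        rw [← Real.mul_rpow (by positivity) (by linarith)]
        exact Real.rpow_le_rpow hL0.le haL (by linarith)
      calc c' * L ^ (1 + κ) ≤ c' * ((2 * A) ^ (1 + κ) * a ^ (1 + κ)) :=
            mul_le_mul_of_nonneg_left e2 hc'0.le
        _ = c * a ^ (1 + κ) := by
            rw [hc', ← mul_assoc, div_mul_cancel₀ _ (by positivity)]
    have e3 : Real.exp (L ^ (1 + κ')) * 3 ≤ Real.exp (c * a ^ (1 + κ)) := by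
      have e4 : (3:ℝ) ≤ Real.exp 2 := by
        have := Real.add_one_le_exp (2:ℝ); linarith
      calc Real.exp (L ^ (1 + κ')) * 3 ≤ Real.exp (L ^ (1 + κ')) * Real.exp 2 := by gcongr
        _ = Real.exp (L ^ (1 + κ') + 2) := (Real.exp_add _ _).symm
        _ ≤ _ := Real.exp_le_exp.2 (by linarith)
    have e5 : Real.exp (c * a ^ (1 + κ)) ≤ 3 * m := by
      have := mul_le_mul_of_nonneg_right key (Real.exp_pos (c * a ^ (1 + κ))).le
      rw [one_mul, mul_assoc, ← Real.exp_add, neg_add_cancel, Real.exp_zero, mul_one] at this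
      exact this
    linarith
  exact_mod_cast Nat.ceil_le.2 hfin

end Vale.Agent.P321.LB2
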