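import Vale.Agent.P321.H35.Slip

/-!
LB2: the state in logarithmic form, padding, one super-round.
-/

namespace Vale.Agent.P321.LB2

open Filter Topology

theorem St.mono {q ε N E1 E2 E1' E2' : ℝ} {u v : List Bool} (h : St q ε N E1 E2 u v)
    (h1 : E1 ≤ E1') (h2 : E2 ≤ E2') : St q ε N E1' E2' u v :=
  ⟨h.ne, h.len, h.hi, h.slip, fun M hM => (h.e1 M hM).trans h1, fun M hM => (h.e2 M hM).trans h2⟩

/-- **State in logarithmic form**: scale `exp a`, errors `exp (-b1)`, `exp (-b2)`. -/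
def StL (q ε a b1 b2 : ℝ) : Prop :=
  ∃ u v : List Bool, St q ε (Real.exp a) (Real.exp (-b1)) (Real.exp (-b2)) u v

theorem StL.mono {q ε a b1 b2 b1' b2' : ℝ} (h : StL q ε a b1 b2) (h1 : b1' ≤ b1)
    (h2 : b2' ≤ b2) : StL q ε a b1' b2' := by
  obtain ⟨u, v, hS⟩ := h
  exact ⟨u, v, hS.mono (Real.exp_le_exp.2 (by linarith)) (Real.exp_le_exp.2 (by linarith))⟩

/-- one round, logarithmic form -/
def RoundL (q ε δ C R0 : ℝ) : Prop := ∀ᶠ a : ℝ in atTop, ∀ b1 b2 : ℝ,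
  StL q ε a b1 b2 → b2 ≤ 2 * b1 → b1 ≤ b2 → R0 * a ≤ b1 → b2 ≤ a ^ (1 + 1 / 40 : ℝ) →
  ∃ a' : ℝ, 4 * a ≤ a' ∧ a' ≤ (4 + δ) * a ∧
    StL q ε a' (4 * b1 - C * a) (4 * b1 + 2 * b2 - C * a)

theorem RoundOK.log {q ε δ C R0 : ℝ} (h : RoundOK q ε δ C R0) : RoundL q ε δ C R0 := by
  have h1 := Real.tendsto_exp_atTop.eventually h
  filter_upwards [h1] with a ha b1 b2 hS h21 h12 hR hb
  obtain ⟨u, v, hS⟩ := hS
  have e0 : Real.log (Real.exp a) = a := Real.log_exp a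
  have e1 : ∀ x : ℝ, Real.exp a ^ x = Real.exp (x * a) := fun x => by
    rw [← Real.exp_mul, mul_comm]
  obtain ⟨N', u', v', g1, g2, g3⟩ := ha _ _ u v hS (by
      rw [← Real.exp_nat_mul]; exact Real.exp_le_exp.2 (by push_cast; linarith))
    (Real.exp_le_exp.2 (by linarith)) (by
      rw [e1]; exact Real.exp_le_exp.2 (by linarith)) (by
      rw [e0]; exact Real.exp_le_exp.2 (by linarith))
  rw [e1] at g1 g2
  have hN' : 0 < N' := (Real.exp_pos _).trans_le g1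
  refine ⟨Real.log N', (Real.le_log_iff_exp_le hN').2 g1, (Real.log_le_iff_le_exp hN').2 g2,
    u', v', ?_⟩
  rw [Real.exp_log hN']
  refine g3.mono (le_of_eq ?_) (le_of_eq ?_)
  · rw [e1, ← Real.exp_nat_mul, ← Real.exp_add]; push_cast; ring_nf
  · rw [e1, ← Real.exp_nat_mul, ← Real.exp_nat_mul, ← Real.exp_add, ← Real.exp_add]
    push_cast; ring_nf

/-- **Super-round**: three rounds and padding. -/
def SuperL (q ε A C R0 : ℝ) : Prop := ∀ᶠ a : ℝ in atTop, ∀ b : ℝ,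
  StL q ε a b b → R0 * a ≤ b → b ≤ a ^ (1 + 1 / 45 : ℝ) →
  ∃ a' : ℝ, 2 * a ≤ a' ∧ a' ≤ A * a ∧ StL q ε a' (120 * b - C * a) (120 * b - C * a)

/-- padding, logarithmic form -/
def PadL (q ε : ℝ) : Prop := ∀ᶠ a : ℝ in atTop, ∀ b1 b2 : ℝ, StL q ε a b1 b2 →
  ∃ a' : ℝ, a ≤ a' ∧ a' ≤ 5 / 3 * a + 1 ∧ StL q ε a' b2 b2

theorem ev_rpow_lt (C p r : ℝ) (h : p < r) : ∀ᶠ t : ℝ in atTop, C * t ^ p ≤ t ^ r :=
  MA.ev_pow_le C p r h

theorem SuperL.of_round {q ε C R0 : ℝ} (hC : 0 ≤ C) (hR0 : 0 ≤ R0)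
    (h : RoundL q ε (1 / 50) C R0) (hpad : PadL q ε) :
    SuperL q ε (1083 / 10) (300 * C) (5 * C + 20 * R0) := by
  have t4 : Tendsto (fun a : ℝ => a) atTop atTop := tendsto_id
  obtain ⟨a1, ha1⟩ := Filter.eventually_atTop.1 h
  obtain ⟨a2, ha2⟩ := Filter.eventually_atTop.1 hpad
  filter_upwards [eventually_ge_atTop a1, eventually_ge_atTop a2, eventually_ge_atTop 100,
    MA.ev_pow_le 30 (1 + 1 / 45) (1 + 1 / 40) (by norm_num)] with a h1 h2 h3 h4 b hS hR hb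
  have ha0 : (0:ℝ) < a := by linarith
  have hCa : 0 ≤ C * a := by positivity
  have hRa : 0 ≤ R0 * a := by positivity
  have hbC : 5 * (C * a) + 20 * (R0 * a) ≤ b := by linarith
  have hpow : ∀ x : ℝ, a ≤ x → 30 * b ≤ x ^ (1 + 1 / 40 : ℝ) := by
    intro x hx
    calc 30 * b ≤ 30 * a ^ (1 + 1 / 45 : ℝ) := by linarith
      _ ≤ a ^ (1 + 1 / 40 : ℝ) := h4
      _ ≤ x ^ (1 + 1 / 40 : ℝ) := Real.rpow_le_rpow ha0.le hx (by norm_num)
  -- round 1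
  obtain ⟨x1, x1l, x1u, S1⟩ := ha1 a h1 b b hS (by linarith) le_rfl (by linarith)
    (by linarith [hpow a le_rfl])
  have hx1 : a ≤ x1 := by linarith
  have hCx1 : C * x1 ≤ (4 + 1 / 50) * (C * a) := by
    have := mul_le_mul_of_nonneg_left x1u hC; linarith
  have hRx1 : R0 * x1 ≤ (4 + 1 / 50) * (R0 * a) := by
    have := mul_le_mul_of_nonneg_left x1u hR0; linarith
  have hCx1' : 0 ≤ C * x1 := mul_nonneg hC (by linarith)
  have hRx1' : 0 ≤ R0 * x1 := mul_nonneg hR0 (by linarith)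
  -- round 2
  obtain ⟨x2, x2l, x2u, S2⟩ := ha1 x1 (by linarith) _ _ S1 (by linarith) (by linarith)
    (by linarith) (by linarith [hpow x1 hx1])
  have hx2 : a ≤ x2 := by linarith
  have hCx2 : C * x2 ≤ (4 + 1 / 50) * (C * x1) := by
    have := mul_le_mul_of_nonneg_left x2u hC; linarith
  have hRx2 : R0 * x2 ≤ (4 + 1 / 50) * (R0 * x1) := by
    have := mul_le_mul_of_nonneg_left x2u hR0; linarith
  have hCx2' : 0 ≤ C * x2 := mul_nonneg hC (by linarith)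
  -- round 3
  obtain ⟨x3, x3l, x3u, S3⟩ := ha1 x2 (by linarith) _ _ S2 (by linarith) (by linarith)
    (by linarith) (by linarith [hpow x2 hx2])
  -- pad
  obtain ⟨x4, x4l, x4u, S4⟩ := ha2 x3 (by linarith) _ _ S3
  refine ⟨x4, by linarith, by linarith, S4.mono ?_ ?_⟩ <;> nlinarith

end Vale.Agent.P321.LB2
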