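import Vale.Agent.P321.H35.Pad

/-!
LB2: from one round to the lower bound `T_q(n) ≥ exp ((log n) ^ (1 + 1/50))`.
-/

namespace Vale.Agent.P321.LB2

open Filter Topology
open scoped unitInterval

theorem num_A : (1083 / 10 : ℝ) ^ (1 + 1 / 48 : ℝ) < 120 := by
  have h1 : (1083 / 10 : ℝ) ^ (1 / 48 : ℝ) ≤ 1.1026 := by
    have h2 : (1083 / 10 : ℝ) ≤ 1.1026 ^ (48 : ℕ) := by norm_num
    calc (1083 / 10 : ℝ) ^ (1 / 48 : ℝ) ≤ ((1.1026 : ℝ) ^ (48 : ℕ)) ^ (1 / 48 : ℝ) :=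
          Real.rpow_le_rpow (by norm_num) h2 (by norm_num)
      _ = 1.1026 := by
          rw [← Real.rpow_natCast, ← Real.rpow_mul (by norm_num)]
          norm_num
  rw [Real.rpow_one_add' (by norm_num) (by norm_num)]
  calc (1083 / 10 : ℝ) * (1083 / 10 : ℝ) ^ (1 / 48 : ℝ) ≤ 1083 / 10 * 1.1026 := by gcongr
    _ < 120 := by norm_num

/-- **Main reduction**: one round implies the lower bound. -/
theorem T_of_round (q : I) (h0 : 0 < (q : ℝ)) (h1 : (q : ℝ) < 1) {ε C R0 : ℝ} (hε : 0 < ε)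
    (hε1 : ε ≤ 1 / 2) (hC : 0 ≤ C) (hR0 : 0 ≤ R0) (h : RoundOK q ε (1 / 50) C R0) :
    ∃ n0 : ℕ, ∀ n : ℕ, n0 ≤ n →
      (⌈Real.exp (Real.log n ^ (1 + 1 / 50 : ℝ))⌉₊ : ℕ∞) ≤ T q n := by
  have hS := SuperL.of_round hC hR0 h.log (padL h0.le h1.le hε hε1)
  have hcov := cover (κ := 1 / 48) (by norm_num) (by norm_num) (by norm_num) num_A hS
    (base_StL h0 h1 ε hε)
  exact T_of_cover q hε1 (A := 1083 / 10) (κ := 1 / 48) (κ' := 1 / 50) (by norm_num)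
    (by norm_num) (by norm_num) hcov

end Vale.Agent.P321.LB2
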