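import Vale.Agent.P321.H35.FinT

/-!
LB2: padding: a state with two errors becomes a state with the small error, at scale `N^(5/3)`.
-/

namespace Vale.Agent.P321.LB2

open Filter Topology

/-- the context of the padded pair -/
theorem pad_ctx {R : Type*} [Ring R] (Y Z : R) (i j n M : ℕ) (h : i + 1 + j = n) :
    (Y ^ n) ^ M * (Y ^ i * Z * Y ^ j - Y ^ n) * (Y ^ n) ^ M =
      Y ^ (n * M + i) * (Z - Y) * Y ^ (j + n * M) := by
  have e : Y ^ i * Z * Y ^ j - Y ^ n = Y ^ i * (Z - Y) * Y ^ j := by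
    rw [← h, mul_sub, sub_mul, pow_add, pow_succ]
  rw [e, ← pow_mul, pow_add, pow_add]
  simp only [mul_assoc]

/-- **Padding.** -/
theorem pad_St_uni {ε : ℝ} (hε : 0 < ε) (hε1 : ε ≤ 1 / 2) :
    ∀ᶠ N : ℝ in atTop, ∀ q : ℝ, 0 ≤ q → q ≤ 1 → ∀ (E1 E2 : ℝ) (u v : List Bool),
      St q ε N E1 E2 u v →
      ∃ (N' : ℝ) (u' v' : List Bool), N ≤ N' ∧ N' ≤ 2 * N ^ (5 / 3 : ℝ) ∧
        St q ε N' E2 E2 u' v' := by
  filter_upwards [ev_slip_inherit ε hε hε1, MA.ev_pow_le 2 (5 / 3) 2 (by norm_num),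
    eventually_ge_atTop 1] with N h2 h3 hN q h0 h1 E1 E2 u v hS
  have hN0 : 0 < N := by linarith
  have hp : (1:ℝ) ≤ N ^ (2 / 3 : ℝ) := Real.one_le_rpow hN (by norm_num)
  set k : ℕ := ⌊N ^ (2 / 3 : ℝ) / 2⌋₊ with hk
  set k' : ℕ := ⌈N ^ (2 / 3 : ℝ)⌉₊ with hk'
  -- number of letters
  set n : ℕ := ⌈N ^ (2 / 3 : ℝ)⌉₊ with hn
  have hn1 : N ^ (2 / 3 : ℝ) ≤ n := Nat.le_ceil _
  have hn2 : (n : ℝ) ≤ N ^ (2 / 3 : ℝ) + 1 := (Nat.ceil_lt_add_one (by positivity)).le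
  have hnpos : 1 ≤ n := by
    have : (0:ℝ) < n := by linarith
    exact_mod_cast this
  obtain ⟨j, hj⟩ : ∃ j, 0 + 1 + j = n := ⟨n - 1, by omega⟩
  have hn0 : (0:ℝ) < n := by exact_mod_cast hnpos
  obtain ⟨K, hK, hK2⟩ := hS.slip
  set lu : List Bool := List.replicate n false with hlu
  set lv : List Bool := true :: List.replicate j false with hlv
  have hll : lu.length = lv.length := by simp [hlu, hlv]; omega
  have hlun : lu.length = n := by simp [hlu]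
  have hWu : W q (MA.sub u v lu) = W q u ^ n := by rw [MA.sub_W, hlu, MA.wd_replicate]
  have hWv : W q (MA.sub u v lv) = W q u ^ 0 * W q v * W q u ^ j := by
    rw [MA.sub_W, hlv, MA.wd_cons, MA.wd_replicate]; simp
  -- contexts
  have hY : MA.Prob (W q u) := W_prob h0 h1 u
  have hctx : ∀ M : ℕ, (N * n) ^ (1 / 5 + ε) ≤ M →
      ‖W q (MA.sub u v lu) ^ M * (W q (MA.sub u v lv) - W q (MA.sub u v lu)) *
        W q (MA.sub u v lu) ^ M‖ ≤ E2 := by
    intro M hM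
    rw [hWu, hWv, pad_ctx _ _ 0 j n M hj]
    have e : W q u ^ (n * M + 0) * (W q v - W q u) * W q u ^ (j + n * M) =
        W q u ^ (n * M) * (W q v - W q u) * W q u ^ (n * M) * W q u ^ j := by
      rw [add_zero, add_comm j, pow_add]; simp only [mul_assoc]
    rw [e]
    refine (MA.l1_mul_prob_right (MA.prob_pow hY j)).trans (hS.e2 (n * M) ?_)
    push_cast
    calc N ^ (1 + ε) ≤ N ^ (2 / 3 : ℝ) * N ^ (5 / 3 * (1 / 5 + ε)) := by
          rw [← Real.rpow_add hN0]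
          exact Real.rpow_le_rpow_of_exponent_le hN (by linarith)
      _ ≤ n * (N * n) ^ (1 / 5 + ε) := by
          refine mul_le_mul hn1 ?_ (Real.rpow_nonneg hN0.le _) hn0.le
          rw [Real.rpow_mul hN0.le]
          refine Real.rpow_le_rpow (by positivity) ?_ (by linarith)
          have e5 : N ^ (5 / 3 : ℝ) = N * N ^ (2 / 3 : ℝ) := by
            rw [← Real.rpow_one_add' hN0.le (by norm_num)]; norm_num
          rw [e5]
          exact mul_le_mul_of_nonneg_left hn1 hN0.le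
      _ ≤ n * M := mul_le_mul_of_nonneg_left hM hn0.le
  have hNn1 : N ≤ N * n := by
    have : (1:ℝ) ≤ n := by exact_mod_cast hnpos
    nlinarith
  refine ⟨N * n, MA.sub u v lu, MA.sub u v lv, hNn1, ?_, ?_, ?_, ?_, ?_, hctx, ?_⟩
  · have e5 : N ^ (5 / 3 : ℝ) = N * N ^ (2 / 3 : ℝ) := by
      rw [← Real.rpow_one_add' hN0.le (by norm_num)]; norm_num
    rw [e5]
    nlinarith
  · intro e
    have e2 := MA.sub_inj u v hS.len.symm hS.ne lu lv hll e
    rw [hlu, hlv, ← hj, zero_add, Nat.add_comm 1 j, List.replicate_succ] at e2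
    simp at e2
  · rw [MA.sub_length u v hS.len.symm, MA.sub_length u v hS.len.symm, hll]
  · rw [MA.sub_length u v hS.len.symm, hlun]
    push_cast
    have := mul_le_mul_of_nonneg_left hS.hi hn0.le
    linarith
  · have hn12 : N ^ (1 / 2 : ℝ) ≤ n :=
      (Real.rpow_le_rpow_of_exponent_le hN (by norm_num)).trans hn1
    have hn50 : (n : ℝ) ≤ N ^ (50 : ℝ) := by
      have e1 : (n : ℝ) ≤ 2 * N ^ (5 / 3 : ℝ) := by
        have : N ^ (2 / 3 : ℝ) ≤ N ^ (5 / 3 : ℝ) :=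
          Real.rpow_le_rpow_of_exponent_le hN (by norm_num)
        linarith
      exact (e1.trans h3).trans (Real.rpow_le_rpow_of_exponent_le hN (by norm_num))
    rw [hWu]
    exact h2 (W q u) (W q u ^ n) K n hY (MA.prob_pow hY n).2.le hK hK2 hn12 hn50 (by
      rw [sub_self, norm_zero]; exact Real.rpow_nonneg hN0.le _)
  · intro M hM
    refine hctx M (le_trans (Real.rpow_le_rpow_of_exponent_le (by linarith) (by linarith)) hM)

theorem pad_St {q ε : ℝ} (h0 : 0 ≤ q) (h1 : q ≤ 1) (hε : 0 < ε) (hε1 : ε ≤ 1 / 2) :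
    ∀ᶠ N : ℝ in atTop, ∀ (E1 E2 : ℝ) (u v : List Bool), St q ε N E1 E2 u v →
      ∃ (N' : ℝ) (u' v' : List Bool), N ≤ N' ∧ N' ≤ 2 * N ^ (5 / 3 : ℝ) ∧
        St q ε N' E2 E2 u' v' := by
  filter_upwards [pad_St_uni hε hε1] with N hN using hN q h0 h1

/-- padding, uniformly in `q` -/
theorem padL_uni {ε : ℝ} (hε : 0 < ε) (hε1 : ε ≤ 1 / 2) :
    ∀ᶠ a : ℝ in atTop, ∀ q : ℝ, 0 ≤ q → q ≤ 1 → ∀ b1 b2 : ℝ, StL q ε a b1 b2 →
      ∃ a' : ℝ, a ≤ a' ∧ a' ≤ 5 / 3 * a + 1 ∧ StL q ε a' b2 b2 := by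
  filter_upwards [Real.tendsto_exp_atTop.eventually (pad_St_uni hε hε1)] with
    a ha q h0 h1 b1 b2 hS
  obtain ⟨u, v, hS⟩ := hS
  obtain ⟨N', u', v', g1, g2, g3⟩ := ha q h0 h1 _ _ u v hS
  have hN' : 0 < N' := (Real.exp_pos _).trans_le g1
  refine ⟨Real.log N', (Real.le_log_iff_exp_le hN').2 g1, ?_, u', v', ?_⟩
  · rw [Real.log_le_iff_le_exp hN']
    refine g2.trans ?_
    rw [← Real.exp_mul, Real.exp_add]
    have h3 : (2:ℝ) ≤ Real.exp 1 := by
      have := Real.add_one_le_exp (1:ℝ); linarith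
    calc 2 * Real.exp (a * (5 / 3)) ≤ Real.exp 1 * Real.exp (a * (5 / 3)) := by gcongr
      _ = Real.exp (5 / 3 * a) * Real.exp 1 := by rw [mul_comm a]; ring
  · rwa [Real.exp_log hN']

theorem padL {q ε : ℝ} (h0 : 0 ≤ q) (h1 : q ≤ 1) (hε : 0 < ε) (hε1 : ε ≤ 1 / 2) :
    PadL q ε := by
  filter_upwards [padL_uni hε hε1] with a ha using ha q h0 h1

end Vale.Agent.P321.LB2
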