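import Vale.Agent.P321.H35.LogForm
import Vale.Agent.P321.H35.BaseSt

/-!
LB2: the recursion: states at a set of scales of bounded logarithmic gaps.
-/

namespace Vale.Agent.P321.LB2

open Filter Topology

/-- base states, logarithmic form -/
theorem base_StL {q : ℝ} (h0 : 0 < q) (h1 : q < 1) (ε : ℝ) (hε : 0 < ε) (R : ℝ) :
    ∀ᶠ a : ℝ in atTop, StL q ε a (R * a) (R * a) := by
  filter_upwards [Real.tendsto_exp_atTop.eventually (base_St h0 h1 ε R hε)] with a ha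
  obtain ⟨u, v, h⟩ := ha
  refine ⟨u, v, ?_⟩
  have e : Real.exp a ^ (-R) = Real.exp (-(R * a)) := by
    rw [← Real.exp_mul]; congr 1; ring
  rwa [e] at h

/-- **The recursion.** -/
theorem cover {q ε A κ C R0 : ℝ} (hA : 2 ≤ A) (hκ0 : 0 < κ) (hκ : κ ≤ 1 / 45)
    (hA120 : A ^ (1 + κ) < 120) (hS : SuperL q ε A C R0)
    (hbase : ∀ R : ℝ, ∀ᶠ a : ℝ in atTop, StL q ε a (R * a) (R * a)) :
    ∃ a0 c : ℝ, 1 ≤ a0 ∧ 0 < c ∧ ∀ t : ℝ, a0 ≤ t → ∃ a : ℝ, a ≤ t ∧ t ≤ A * a ∧ a0 ≤ a ∧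
      StL q ε a (c * a ^ (1 + κ)) (c * a ^ (1 + κ)) := by
  set g : ℝ := 120 - A ^ (1 + κ) with hg
  have hg0 : 0 < g := by rw [hg]; linarith
  set R : ℝ := max (max R0 (C / g)) 1 with hR
  have hR1 : 1 ≤ R := le_max_right _ _
  have hRR0 : R0 ≤ R := (le_max_left _ _).trans (le_max_left _ _)
  have hRC : C / g ≤ R := (le_max_right _ _).trans (le_max_left _ _)
  obtain ⟨a1, ha1⟩ := Filter.eventually_atTop.1 hS
  have hκR : ∀ᶠ a : ℝ in atTop, R ≤ a ^ κ := (tendsto_rpow_atTop hκ0).eventually_ge_atTop R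
  obtain ⟨a0, ⟨⟨hb0, hRa0⟩, ha01⟩, ha0g⟩ := (((hbase R).and hκR).and
    (eventually_ge_atTop a1)).and (eventually_ge_atTop 1) |>.exists
  have ha0 : 0 < a0 := by linarith
  have ha0κ : 0 < a0 ^ κ := Real.rpow_pos_of_pos ha0 _
  set c : ℝ := R / a0 ^ κ with hc
  have hc0 : 0 < c := by positivity
  have hc1 : c ≤ 1 := (div_le_one ha0κ).2 hRa0
  have hcR : c * a0 ^ κ = R := div_mul_cancel₀ _ ha0κ.ne'
  have hf : ∀ a : ℝ, a0 ≤ a → c * a ^ (1 + κ) = c * a ^ κ * a := fun a ha => by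
    rw [Real.rpow_one_add' (by linarith) (by linarith)]; ring
  have hfR : ∀ a : ℝ, a0 ≤ a → R * a ≤ c * a ^ (1 + κ) := fun a ha => by
    rw [hf a ha, ← hcR]
    have : a0 ^ κ ≤ a ^ κ := Real.rpow_le_rpow ha0.le ha hκ0.le
    have ha' : 0 ≤ a := by linarith
    gcongr
  -- base
  have hbase0 : StL q ε a0 (c * a0 ^ (1 + κ)) (c * a0 ^ (1 + κ)) := by
    rw [hf a0 le_rfl, hcR]; exact hb0
  -- step
  have hstep : ∀ a : ℝ, a0 ≤ a → StL q ε a (c * a ^ (1 + κ)) (c * a ^ (1 + κ)) →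
      ∃ a' : ℝ, 2 * a ≤ a' ∧ a' ≤ A * a ∧ StL q ε a' (c * a' ^ (1 + κ)) (c * a' ^ (1 + κ)) := by
    intro a ha hSt
    have hapos : 0 < a := by linarith
    have hRa := hfR a ha
    obtain ⟨a', h1, h2, h3⟩ := ha1 a (by linarith) _ hSt
      ((mul_le_mul_of_nonneg_right hRR0 hapos.le).trans hRa) (by
        have h4 : a ^ (1 + κ) ≤ a ^ (1 + 1 / 45 : ℝ) :=
          Real.rpow_le_rpow_of_exponent_le (by linarith) (by linarith)
        calc c * a ^ (1 + κ) ≤ 1 * a ^ (1 + κ) :=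
              mul_le_mul_of_nonneg_right hc1 (Real.rpow_nonneg hapos.le _)
          _ = a ^ (1 + κ) := one_mul _
          _ ≤ _ := h4)
    have h5 : c * a' ^ (1 + κ) ≤ 120 * (c * a ^ (1 + κ)) - C * a := by
      have h6 : a' ^ (1 + κ) ≤ A ^ (1 + κ) * a ^ (1 + κ) := by
        rw [← Real.mul_rpow (by linarith) hapos.le]
        exact Real.rpow_le_rpow (by linarith) h2 (by linarith)
      have h7 : c * a' ^ (1 + κ) ≤ A ^ (1 + κ) * (c * a ^ (1 + κ)) := by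
        calc c * a' ^ (1 + κ) ≤ c * (A ^ (1 + κ) * a ^ (1 + κ)) :=
              mul_le_mul_of_nonneg_left h6 hc0.le
          _ = _ := by ring
      have h8 : C * a ≤ g * (c * a ^ (1 + κ)) := by
        have h9 : C ≤ g * R := by
          rw [div_le_iff₀ hg0] at hRC; linarith
        calc C * a ≤ g * R * a := mul_le_mul_of_nonneg_right h9 hapos.le
          _ = g * (R * a) := by ring
          _ ≤ _ := mul_le_mul_of_nonneg_left hRa hg0.le
      have h10 : g * (c * a ^ (1 + κ)) = 120 * (c * a ^ (1 + κ)) -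
          A ^ (1 + κ) * (c * a ^ (1 + κ)) := by rw [hg]; ring
      linarith
    exact ⟨a', h1, h2, h3.mono h5 h5⟩
  refine ⟨a0, c, ha0g, hc0, fun t ht => ?_⟩
  by_contra hcon
  push Not at hcon
  have hind : ∀ j : ℕ, ∃ a : ℝ, 2 ^ j * a0 ≤ a ∧ a ≤ t ∧
      StL q ε a (c * a ^ (1 + κ)) (c * a ^ (1 + κ)) := by
    intro j
    induction j with
    | zero => exact ⟨a0, by simp, ht, hbase0⟩
    | succ j ih =>
      obtain ⟨a, h1, h2, h3⟩ := ih
      have h2j : (1:ℝ) ≤ 2 ^ j := one_le_pow₀ (by norm_num)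
      have ha : a0 ≤ a := by nlinarith
      have hlt : ¬ (t ≤ A * a) := fun h => hcon a h2 h ha h3
      obtain ⟨a', g1, g2, g3⟩ := hstep a ha h3
      refine ⟨a', ?_, ?_, g3⟩
      · rw [pow_succ]; linarith
      · linarith
  obtain ⟨j, hj⟩ := pow_unbounded_of_one_lt t (one_lt_two (α := ℝ))
  obtain ⟨a, h1, h2, _⟩ := hind j
  have : (2:ℝ) ^ j * 1 ≤ 2 ^ j * a0 := mul_le_mul_of_nonneg_left ha0g (by positivity)
  linarith

end Vale.Agent.P321.LB2
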