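import Vale.Agent.P321.H35.URec
import Vale.Agent.P321.H181.Round
import Vale.Agent.P321.H535.Glue
import Vale.Agent.P321.H117.TCoreFin
import Vale.Agent.P321.H505.NumOK

/-!
LB2: the round, and the lower bound.
-/

namespace Vale.Agent.P321.LB2

open scoped unitInterval

theorem tstepU : TStepU (1 / 50000) (1 / 1000) 40 10 :=
  tstep_of (by norm_num) (by norm_num) tCore H328.genOK
    (H505.numOK (by norm_num) (by norm_num) (by norm_num) (by norm_num))

theorem roundU : RoundU (1 / 50000) (1 / 50) (4 * 40 + 15) (max 10 (40 + 200)) :=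
  H181.roundU_of_tstepU (by norm_num) (by norm_num) (by norm_num) (by norm_num) (by norm_num)
    tstepU

/-- **The lower bound.** -/
theorem lower_superlinear : ∃ c : ℝ, 0 < c ∧ ∃ n0 : ℕ, ∀ n : ℕ, n0 ≤ n → ∀ q : I,
    (Real.log n) ^ (-c) ≤ (q : ℝ) →
      (⌈Real.exp (Real.log n ^ (1 + 1 / 50 : ℝ))⌉₊ : ℕ∞) ≤ T q n :=
  T_of_round_uni (by norm_num) (by norm_num) (by norm_num) (by norm_num) roundU

end Vale.Agent.P321.LB2
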