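import Vale.Agent.P321.Bdl.B8
import Mathlib.Analysis.Normed.Group.Basic
import Mathlib.Analysis.Normed.Ring.Basic
import Mathlib.Analysis.Normed.Module.Basic

/-!
LB2: the state of the recursion (literal form), the normed algebra of laws, the statement of one
round.
-/

namespace Vale.Agent.P321.LB2

open Filter Topology

/-- the algebra of (signed) laws on binary strings; product = concatenation -/
abbrev Al := MonoidAlgebra ℝ (FreeMonoid Bool)

/-- the `l1` norm as a group norm -/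
noncomputable def l1Norm : AddGroupNorm Al where
  toFun := MA.l1
  map_zero' := MA.l1_zero
  add_le' := MA.l1_add
  neg' := MA.l1_neg
  eq_zero_of_map_eq_zero' x hx := by
    apply MA.ext_ev
    intro g
    have h1 : ∀ w ∈ x.coeff.support, |x.coeff w| = 0 :=
      (Finset.sum_eq_zero_iff_of_nonneg fun _ _ => abs_nonneg _).1 hx
    rw [MA.ev_zero, MA.ev_def]
    refine Finset.sum_eq_zero fun w hw => ?_
    have := abs_eq_zero.1 (h1 w hw)
    simp [this]

noncomputable scoped instance instNACG : NormedAddCommGroup Al := l1Norm.toNormedAddCommGroup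

noncomputable scoped instance instNR : NormedRing Al :=
  { instNACG, (inferInstance : Ring Al) with
    norm_mul_le := MA.l1_mul }

noncomputable scoped instance instNA : NormedAlgebra ℝ Al where
  norm_smul_le r x := (MA.l1_smul r x).le

theorem norm_def (x : Al) : ‖x‖ = MA.l1 x := rfl

/-- **State at scale `N`** (real number): two distinct words `u`, `v` of equal length `≤ N`;
`Y = W q u`; slip of `Y` at `K ≤ N^(1+ε)` words; the difference `W q v - W q u` inside a context
`Y^M · Y^M` has norm `≤ E1` for `M ≥ N^(1/5+ε)` and `≤ E2` for `M ≥ N^(1+ε)`. -/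
structure St (q ε N E1 E2 : ℝ) (u v : List Bool) : Prop where
  ne : u ≠ v
  len : v.length = u.length
  hi : (u.length : ℝ) ≤ N
  slip : ∃ K : ℕ, L1Str.Slip (MA.str (G := FreeMonoid Bool)) (W q u) K ∧ (K : ℝ) ≤ N ^ (1 + ε)
  e1 : ∀ M : ℕ, N ^ (1 / 5 + ε) ≤ M → ‖W q u ^ M * (W q v - W q u) * W q u ^ M‖ ≤ E1
  e2 : ∀ M : ℕ, N ^ (1 + ε) ≤ M → ‖W q u ^ M * (W q v - W q u) * W q u ^ M‖ ≤ E2

/-- **One round**, the target of T-step + S-steps.  `N' ≤ N^(4+δ)` (needed: `δ = 1/50`, `ε` may be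
chosen as small as one likes, `C`, `R0` as large as one likes, all depending only on `q`). -/
def RoundOK (q ε δ C R0 : ℝ) : Prop := ∀ᶠ N : ℝ in atTop, ∀ (E1 E2 : ℝ) (u v : List Bool),
  St q ε N E1 E2 u v → E1 ^ 2 ≤ E2 → E2 ≤ E1 → E1 ≤ N ^ (-R0) →
  Real.exp (-(Real.log N) ^ (1 + 1 / 40 : ℝ)) ≤ E2 →
  ∃ (N' : ℝ) (u' v' : List Bool), N ^ (4 : ℝ) ≤ N' ∧ N' ≤ N ^ (4 + δ) ∧
    St q ε N' (N ^ C * E1 ^ 4) (N ^ C * E1 ^ 4 * E2 ^ 2) u' v'

end Vale.Agent.P321.LB2
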