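import Vale.Agent.P321.H35.LogForm
import Vale.Agent.P321.R4.H101.Fin

/-!
LB2: base states with a scale which is polynomial in `1 / q`.
-/

namespace Vale.Agent.P321.LB2

open Filter Topology

/-- a triple datum gives a state -/
theorem St_of_tri {q ε : ℝ} (h0 : 0 ≤ q) (h1 : q ≤ 1) (hε : 0 ≤ ε) {g l h d r : ℕ} {E R : ℝ}
    (H : MA.HasTri' q g l h d r E) (hE0 : 0 ≤ E) (hE : E ≤ ((2:ℝ) ^ d)⁻¹)
    (hd : d = 2 * h) (hg : g + 14 ≤ h) (hgl : g + 10 ≤ l) (hR : R * l + 2 ≤ h) :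
    StL q ε (l * Real.log 2) (R * (l * Real.log 2)) (R * (l * Real.log 2)) := by
  obtain ⟨u, v0, v1, Y, e, f, a, b, K, T, ha⟩ := H
  set w : ℝ := ((2:ℝ) ^ h)⁻¹ with hw
  have hw0 : 0 < w := by positivity
  have hdw : ((2:ℝ) ^ d)⁻¹ = w ^ 2 := by rw [hd, hw, inv_pow, ← pow_mul, mul_comm]
  have hw14 : w ≤ 1 / 16384 := by
    rw [hw, one_div]
    refine inv_anti₀ (by norm_num) ?_
    calc (16384:ℝ) = 2 ^ 14 := by norm_num
      _ ≤ 2 ^ h := pow_le_pow_right₀ (by norm_num) (by omega)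
  have hw2 : w ^ 2 ≤ w / 16384 := by nlinarith
  have haw : a ≤ w := by
    have h2 : a ^ 2 ≤ w ^ 2 := by rw [← hdw]; exact ha
    exact (le_abs_self a).trans (abs_le_of_sq_le_sq h2 hw0.le)
  have hbw : b ≤ w := by
    have h2 := T.heta
    have h3 : 0 ≤ a ^ 2 := sq_nonneg a
    linarith
  have hEw : E ≤ w / 16384 := by rw [hdw] at hE; linarith
  have lf : MA.l1 f ≤ a := by
    have := T.trip.hf.l1_le T.trip.hY.nonneg T.trip.hY.aug (sq_nonneg a)
    rwa [Real.sqrt_sq T.trip.a0] at this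
  have le' : MA.l1 e ≤ b := by
    have := T.trip.he.l1_le T.trip.hY.nonneg T.trip.hY.aug (sq_nonneg b)
    rwa [Real.sqrt_sq T.trip.b0] at this
  have c0 : MA.l1 (Y - W q v0) ≤ 3 * w := by
    have e1 : Y - W q v0 = -(W q v0 - (Y + e - f)) + (-e + f) := by abel
    rw [e1]
    refine (MA.l1_add _ _).trans ?_
    rw [MA.l1_neg]
    have h2 := MA.l1_add (-e) f
    rw [MA.l1_neg] at h2
    have h3 := T.err0
    linarith
  have c1 : ‖W q v1 - W q v0‖ ≤ 3 * w := by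
    have e1 : W q v1 - W q v0 = (W q v1 - (Y + e + f)) + (-(W q v0 - (Y + e - f)) + (f + f)) := by
      abel
    change MA.l1 _ ≤ _
    rw [e1]
    refine (MA.l1_add _ _).trans ?_
    have h2 := MA.l1_add (-(W q v0 - (Y + e - f))) (f + f)
    rw [MA.l1_neg] at h2
    have h4 := MA.l1_add f f
    have h3 := T.err0
    have h5 := T.err1
    linarith
  have hKg : (K : ℝ) ≤ 2 ^ g := by exact_mod_cast T.slipK
  have hgw : (2:ℝ) ^ g * w ≤ 1 / 16384 := by
    have h2 : (2:ℝ) ^ (g + 14) ≤ 2 ^ h := pow_le_pow_right₀ (by norm_num) hg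
    rw [hw, ← div_eq_mul_inv, div_le_iff₀ (by positivity)]
    rw [pow_add] at h2
    linarith
  have hexpl : Real.exp (l * Real.log 2) = 2 ^ l := by
    rw [Real.exp_nat_mul, Real.exp_log (by norm_num)]
  have hslip := Lt.slip_near (X := Y) (Y := W q v0) (δ := 3 * w) T.trip.hY
    (W_prob h0 h1 v0) T.slip c0 (by
      have hK0 : (0:ℝ) ≤ K := Nat.cast_nonneg _
      have : (K:ℝ) * w ≤ 2 ^ g * w := mul_le_mul_of_nonneg_right hKg hw0.le
      linarith)
  have hctx : ∀ M : ℕ, ‖W q v0 ^ M * (W q v1 - W q v0) * W q v0 ^ M‖ ≤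
      Real.exp (-(R * (l * Real.log 2))) := by
    intro M
    have hp : MA.Prob (W q v0 ^ M) := MA.prob_pow (W_prob h0 h1 v0) M
    have h2 : ‖W q v0 ^ M * (W q v1 - W q v0) * W q v0 ^ M‖ ≤ ‖W q v1 - W q v0‖ := by
      change MA.l1 _ ≤ _
      exact (MA.l1_mul_prob_right hp).trans (MA.l1_mul_prob_left hp)
    refine h2.trans (c1.trans ?_)
    have h3 : w = Real.exp (-(h * Real.log 2)) := by
      rw [Real.exp_neg, Real.exp_nat_mul, Real.exp_log (by norm_num)]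
    have h4 : (3:ℝ) ≤ Real.exp (2 * Real.log 2) := by
      have : Real.exp (2 * Real.log 2) = 4 := by
        rw [show (2:ℝ) = ((2:ℕ):ℝ) by norm_num, Real.exp_nat_mul, Real.exp_log (by norm_num)]
        norm_num
      rw [this]; norm_num
    rw [h3]
    calc 3 * Real.exp (-(h * Real.log 2))
        ≤ Real.exp (2 * Real.log 2) * Real.exp (-(h * Real.log 2)) := by gcongr
      _ = Real.exp (2 * Real.log 2 + -(h * Real.log 2)) := (Real.exp_add _ _).symm
      _ ≤ _ := by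
        apply Real.exp_le_exp.2
        have hl2 : 0 < Real.log 2 := Real.log_pos (by norm_num)
        have := mul_le_mul_of_nonneg_right hR hl2.le
        linarith
  refine ⟨v0, v1, T.ne, ?_, ?_, ⟨1000 * K, hslip, ?_⟩, fun M _ => hctx M, fun M _ => hctx M⟩
  · rw [T.len1, T.len0]
  · rw [hexpl, T.len0]; exact_mod_cast T.len
  · rw [hexpl]
    have h3 : (2:ℝ) ^ (g + 10) ≤ 2 ^ l := pow_le_pow_right₀ (by norm_num) hgl
    have h5 : (1:ℝ) ≤ 2 ^ l := one_le_pow₀ (by norm_num)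
    have h4 : (2:ℝ) ^ l ≤ ((2:ℝ) ^ l) ^ (1 + ε) :=
      Real.self_le_rpow_of_one_le h5 (by linarith)
    rw [pow_add] at h3
    push_cast
    refine le_trans ?_ h4
    have h6 : (0:ℝ) < 2 ^ g := by positivity
    linarith

theorem const_exists (R : ℝ) : ∃ N J : ℕ, 270 ≤ N ∧ J = N - 264 ∧ J + 264 = N ∧
    256 * R + 1 ≤ 129 + J := by
  refine ⟨(270 + ⌈256 * |R|⌉₊) + 264, 270 + ⌈256 * |R|⌉₊, by omega, by omega, rfl, ?_⟩
  have h1 := Nat.le_ceil (256 * |R|)
  have h3 := le_abs_self R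
  push_cast
  linarith

/-- **Base states, scale polynomial in `1 / q`.** -/
theorem base_uni (ε R : ℝ) (hε : 0 ≤ ε) : ∃ C : ℝ, 1 ≤ C ∧ ∀ q : ℝ, 0 < q → q ≤ 1 / 2 →
    ∀ t : ℝ, (C / q) ^ C ≤ t → ∃ a : ℝ, t ≤ a ∧ a ≤ C * t ∧ StL q ε a (R * a) (R * a) := by
  obtain ⟨M, hM, hbase⟩ := R4.H101.stBase
  obtain ⟨N, J, hN270, hJ, hJ24, hRJ⟩ := const_exists R
  have hM1 : (1:ℝ) ≤ M := by exact_mod_cast hM
  have hN1 : (1:ℝ) ≤ N := by exact_mod_cast (by omega : 1 ≤ N)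
  obtain ⟨D, hD⟩ : ∃ D : ℝ, D = N * 4 ^ J := ⟨_, rfl⟩
  have hNJ : (1:ℝ) ≤ D := by
    rw [hD]
    exact one_le_mul_of_one_le_of_one_le hN1 (one_le_pow₀ (by norm_num))
  obtain ⟨C, hC⟩ : ∃ C : ℝ, C = (M : ℝ) + 33 * N ^ 2 + 200000 * D := ⟨_, rfl⟩
  have hNsq : 0 ≤ (N:ℝ) ^ 2 := sq_nonneg _
  have hC1 : 1 ≤ C := by rw [hC]; linarith only [hM1, hNsq, hNJ]
  refine ⟨C, hC1, fun q h0 h2 t ht => ?_⟩
  have hq1 : q ≤ 1 := by linarith
  have hCq : 1 ≤ C / q := by
    rw [le_div_iff₀ h0]; linarith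
  have hCC : C ≤ (C / q) ^ C := by
    have h3 : C ≤ C / q := by
      rw [le_div_iff₀ h0]
      exact mul_le_of_le_one_right (by linarith only [hC1]) hq1
    exact h3.trans (Real.self_le_rpow_of_one_le hCq hC1)
  have hMC : R4.H101.Pq M q ≤ (C / q) ^ C := by
    unfold R4.H101.Pq
    have hMleC : (M:ℝ) ≤ C := by rw [hC]; linarith only [hM1, hNsq, hNJ]
    calc ((M:ℝ) / q) ^ M ≤ (C / q) ^ M := by gcongr
      _ = (C / q) ^ (M : ℝ) := (Real.rpow_natCast _ _).symm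
      _ ≤ (C / q) ^ C := Real.rpow_le_rpow_of_exponent_le hCq hMleC
  have ht1 : 1 ≤ t := by linarith
  obtain ⟨z, hz⟩ : ∃ z : ℕ, z = ⌈t⌉₊ := ⟨_, rfl⟩
  have hzt : t ≤ z := by rw [hz]; exact Nat.le_ceil t
  have hzt2 : (z:ℝ) ≤ 2 * t := by
    have := Nat.ceil_lt_add_one (by linarith : 0 ≤ t)
    rw [← hz] at this
    linarith
  have hz33 : 33 * N ^ 2 ≤ z := by
    have : (33:ℝ) * N ^ 2 ≤ z := by
      have h3 : (33:ℝ) * N ^ 2 ≤ C := by rw [hC]; linarith only [hM1, hNsq, hNJ]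
      linarith only [h3, hCC, ht, hzt]
    exact_mod_cast this
  have hz1 : 1 ≤ z := by
    have : 1 ≤ N ^ 2 := Nat.one_le_pow _ _ (by omega)
    omega
  have hNz : N ≤ N * z := Nat.le_mul_of_pos_right _ hz1
  have hzN : z ≤ N * z := Nat.le_mul_of_pos_left _ (by omega)
  have hPX : R4.H101.Pq M q ≤ ((4096 * (N * z) : ℕ) : ℝ) := by
    refine (hMC.trans ht).trans (hzt.trans ?_)
    exact_mod_cast (by omega : z ≤ 4096 * (N * z))
  have hb := hbase q h0 h2 (4096 * (N * z)) hPX (4100 * (N * z)) (5112 * (N * z)) (8180 * (N * z))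
    (512 * (N * z)) (by omega) (by omega) (by omega) (by omega) (by omega)
  have hstep : MA.StepOK q 24 := MA.step_ok (MA.smallDS le_rfl) h0.le hq1
  have hc := MA.rate_core hstep (by omega) (by omega) hz33 (Real.exp_pos _).le hb J (by omega)
  obtain ⟨s, hs⟩ : ∃ s, s = MA.ss N z J := ⟨_, rfl⟩
  have lo := MA.ss_lo N z J
  have hi := MA.ss_hi N z J (by omega) (by omega)
  rw [← hs] at hc lo hi
  have hi' : s ≤ 130 * z * 4 ^ J := by exact_mod_cast hi
  have herr0 := MA.err_arith N z J (by omega) hz1 (by omega) (by omega)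
  obtain ⟨B, hB⟩ : ∃ B, B = N * (z * 4 ^ J) := ⟨_, rfl⟩
  rw [← hB] at herr0
  obtain ⟨P, hP⟩ : ∃ P, P = N * s := ⟨_, rfl⟩
  rw [← hP] at hc
  have lo2 : 65 * B ≤ P := by
    have := Nat.mul_le_mul_left N lo
    have e : N * (65 * z * 4 ^ J) = 65 * B := by rw [hB]; ring
    omega
  have hi2 : P ≤ 130 * B := by
    have := Nat.mul_le_mul_left N hi'
    have e : N * (130 * z * 4 ^ J) = 130 * B := by rw [hB]; ring
    omega
  have hJN : 129 + J ≤ N := by omega
  have hB1 : z ≤ B := by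
    rw [hB]
    have h5 : 1 ≤ 4 ^ J := Nat.one_le_pow _ _ (by norm_num)
    calc z = 1 * (z * 1) := by ring
      _ ≤ N * (z * 4 ^ J) := by gcongr; omega
  -- the error
  have herr : (2 : ℝ) ^ (512 * P) * Real.exp (-(2 : ℝ) ^ (4096 * (N * z) / 2))
      ≤ ((2 : ℝ) ^ (4 * P * (129 + J)))⁻¹ := by
    refine MA.exp_arith (c' := 2048 * (N * z)) ?_ (by omega)
    have g2 : 4 * P * (129 + J) ≤ 4 * P * N := Nat.mul_le_mul_left _ hJN
    have g3 : 512 * P + 4 * P * N ≤ 512 * P * N := by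
      have a1 : P * 270 ≤ P * N := Nat.mul_le_mul_left _ hN270
      have a2 : 4 * P * N = 4 * (P * N) := by ring
      have a3 : 512 * P * N = 512 * (P * N) := by ring
      omega
    have g4 : 512 * P * N ≤ 512 * (130 * B) * N :=
      Nat.mul_le_mul_right _ (Nat.mul_le_mul_left _ hi2)
    have g5 : 512 * (130 * B) * N = 66560 * (N * B) := by ring
    omega
  have hP65 : 65 ≤ P := by omega
  have hP0 : (65:ℝ) ≤ P := by exact_mod_cast hP65
  have hgh : 256 * P + 14 ≤ 2 * P * (129 + J) := by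
    have e : 2 * P * (129 + J) = 258 * P + 2 * (P * J) := by ring
    omega
  have hSt := St_of_tri (R := R) h0.le hq1 hε hc (by positivity) herr (by ring)
    hgh (by omega) (by
      push_cast
      have h6 : R * (512 * (P:ℝ)) + 2 = 2 * P * (256 * R) + 2 := by ring
      have h7 : 2 * (P:ℝ) * (256 * R + 1) ≤ 2 * P * (129 + J) :=
        mul_le_mul_of_nonneg_left hRJ (by linarith only [hP0])
      linarith only [h6, h7, hP0])
  have hl2 : (0.5:ℝ) ≤ Real.log 2 := by linarith [Real.log_two_gt_d9]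
  have hl2' : Real.log 2 ≤ 1 := by linarith [Real.log_two_lt_d9]
  refine ⟨_, ?_, ?_, hSt⟩
  · push_cast
    have h8 : (z:ℝ) ≤ P := by exact_mod_cast (by omega : z ≤ P)
    have h9 : 512 * (P:ℝ) * 0.5 ≤ 512 * P * Real.log 2 :=
      mul_le_mul_of_nonneg_left hl2 (by linarith only [hP0])
    linarith only [h8, h9, hzt, hP0]
  · push_cast
    have h8 : (P:ℝ) ≤ 130 * (D * z) := by
      have : P ≤ 130 * (N * (z * 4 ^ J)) := by rw [← hB]; exact hi2
      have h9 : (P:ℝ) ≤ 130 * (N * (z * 4 ^ J)) := by exact_mod_cast this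
      have h10 : D * (z:ℝ) = N * (z * 4 ^ J) := by rw [hD]; ring
      rw [h10]; exact h9
    have h9 : D * (z:ℝ) ≤ D * (2 * t) :=
      mul_le_mul_of_nonneg_left hzt2 (by linarith only [hNJ])
    have h10 : 512 * (P:ℝ) * Real.log 2 ≤ 512 * P * 1 :=
      mul_le_mul_of_nonneg_left hl2' (by linarith only [hP0])
    have h11 : (200000 * D) * t ≤ C * t := by
      refine mul_le_mul_of_nonneg_right ?_ (by linarith only [ht1])
      rw [hC]; linarith only [hM1, hNsq, hNJ]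
    have h12 : 0 ≤ D * t := mul_nonneg (by linarith only [hNJ]) (by linarith only [ht1])
    linarith only [h8, h9, h10, h11, h12]

end Vale.Agent.P321.LB2
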