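import Vale.Agent.P321.H35.Uni
import Vale.Agent.P321.H35.UBase
import Vale.Agent.P321.R3.H101.Mono

/-!
LB2: the recursion uniformly in the deletion probability, and the uniform lower bound.
-/

namespace Vale.Agent.P321.LB2

open Filter Topology
open scoped unitInterval

/-- one round, logarithmic form, uniform in `q` -/
def RoundLU (ε δ C R0 : ℝ) : Prop := ∀ᶠ a : ℝ in atTop, ∀ q : ℝ, 0 ≤ q → q ≤ 1 → ∀ b1 b2 : ℝ,
  StL q ε a b1 b2 → b2 ≤ 2 * b1 → b1 ≤ b2 → R0 * a ≤ b1 → b2 ≤ a ^ (1 + 1 / 40 : ℝ) →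
  ∃ a' : ℝ, 4 * a ≤ a' ∧ a' ≤ (4 + δ) * a ∧
    StL q ε a' (4 * b1 - C * a) (4 * b1 + 2 * b2 - C * a)

theorem RoundU.log {ε δ C R0 : ℝ} (h : RoundU ε δ C R0) : RoundLU ε δ C R0 := by
  have h1 := Real.tendsto_exp_atTop.eventually h
  filter_upwards [h1] with a ha q hq0 hq1 b1 b2 hS h21 h12 hR hb
  obtain ⟨u, v, hS⟩ := hS
  have e0 : Real.log (Real.exp a) = a := Real.log_exp a
  have e1 : ∀ x : ℝ, Real.exp a ^ x = Real.exp (x * a) := fun x => by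
    rw [← Real.exp_mul, mul_comm]
  obtain ⟨N', u', v', g1, g2, g3⟩ := ha q hq0 hq1 _ _ u v hS (by
      rw [← Real.exp_nat_mul]; exact Real.exp_le_exp.2 (by push_cast; linarith))
    (Real.exp_le_exp.2 (by linarith)) (by
      rw [e1]; exact Real.exp_le_exp.2 (by linarith)) (by
      rw [e0]; exact Real.exp_le_exp.2 (by linarith))
  rw [e1] at g1 g2
  have hN' : 0 < N' := (Real.exp_pos _).trans_le g1
  refine ⟨Real.log N', (Real.le_log_iff_exp_le hN').2 g1, (Real.log_le_iff_le_exp hN').2 g2,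
    u', v', ?_⟩
  rw [Real.exp_log hN']
  refine g3.mono (le_of_eq ?_) (le_of_eq ?_)
  · rw [e1, ← Real.exp_nat_mul, ← Real.exp_add]; push_cast; ring_nf
  · rw [e1, ← Real.exp_nat_mul, ← Real.exp_nat_mul, ← Real.exp_add, ← Real.exp_add]
    push_cast; ring_nf

/-- super-round, uniform in `q` -/
def SuperLU (ε A C R0 : ℝ) : Prop := ∀ᶠ a : ℝ in atTop, ∀ q : ℝ, 0 ≤ q → q ≤ 1 → ∀ b : ℝ,
  StL q ε a b b → R0 * a ≤ b → b ≤ a ^ (1 + 1 / 45 : ℝ) →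
  ∃ a' : ℝ, 2 * a ≤ a' ∧ a' ≤ A * a ∧ StL q ε a' (120 * b - C * a) (120 * b - C * a)

theorem SuperLU.of_round {ε C R0 : ℝ} (hC : 0 ≤ C) (hR0 : 0 ≤ R0) (hε : 0 < ε)
    (hε1 : ε ≤ 1 / 2) (h : RoundLU ε (1 / 50) C R0) :
    SuperLU ε (1083 / 10) (300 * C) (5 * C + 20 * R0) := by
  obtain ⟨a1, ha1⟩ := Filter.eventually_atTop.1 h
  obtain ⟨a2, ha2⟩ := Filter.eventually_atTop.1 (padL_uni hε hε1)
  filter_upwards [eventually_ge_atTop a1, eventually_ge_atTop a2, eventually_ge_atTop 100,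
    MA.ev_pow_le 30 (1 + 1 / 45) (1 + 1 / 40) (by norm_num)] with
    a h1 h2 h3 h4 q hq0 hq1 b hS hR hb
  have ha0 : (0:ℝ) < a := by linarith
  have hCa : 0 ≤ C * a := by positivity
  have hRa : 0 ≤ R0 * a := by positivity
  have hbC : 5 * (C * a) + 20 * (R0 * a) ≤ b := by linarith
  have hpow : ∀ x : ℝ, a ≤ x → 30 * b ≤ x ^ (1 + 1 / 40 : ℝ) := by
    intro x hx
    calc 30 * b ≤ 30 * a ^ (1 + 1 / 45 : ℝ) := by linarith
      _ ≤ a ^ (1 + 1 / 40 : ℝ) := h4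
      _ ≤ x ^ (1 + 1 / 40 : ℝ) := Real.rpow_le_rpow ha0.le hx (by norm_num)
  -- round 1
  obtain ⟨x1, x1l, x1u, S1⟩ := ha1 a h1 q hq0 hq1 b b hS (by linarith) le_rfl (by linarith)
    (by linarith [hpow a le_rfl])
  have hx1 : a ≤ x1 := by linarith
  have hCx1 : C * x1 ≤ (4 + 1 / 50) * (C * a) := by
    have := mul_le_mul_of_nonneg_left x1u hC; linarith
  have hRx1 : R0 * x1 ≤ (4 + 1 / 50) * (R0 * a) := by
    have := mul_le_mul_of_nonneg_left x1u hR0; linarith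
  have hCx1' : 0 ≤ C * x1 := mul_nonneg hC (by linarith)
  have hRx1' : 0 ≤ R0 * x1 := mul_nonneg hR0 (by linarith)
  -- round 2
  obtain ⟨x2, x2l, x2u, S2⟩ := ha1 x1 (by linarith) q hq0 hq1 _ _ S1 (by linarith) (by linarith)
    (by linarith) (by linarith [hpow x1 hx1])
  have hx2 : a ≤ x2 := by linarith
  have hCx2 : C * x2 ≤ (4 + 1 / 50) * (C * x1) := by
    have := mul_le_mul_of_nonneg_left x2u hC; linarith
  have hRx2 : R0 * x2 ≤ (4 + 1 / 50) * (R0 * x1) := by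
    have := mul_le_mul_of_nonneg_left x2u hR0; linarith
  have hCx2' : 0 ≤ C * x2 := mul_nonneg hC (by linarith)
  -- round 3
  obtain ⟨x3, x3l, x3u, S3⟩ := ha1 x2 (by linarith) q hq0 hq1 _ _ S2 (by linarith) (by linarith)
    (by linarith) (by linarith [hpow x2 hx2])
  -- pad
  obtain ⟨x4, x4l, x4u, S4⟩ := ha2 x3 (by linarith) q hq0 hq1 _ _ S3
  refine ⟨x4, by linarith, by linarith, S4.mono ?_ ?_⟩ <;> nlinarith

/-- **The recursion, uniform in `q`.** -/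
theorem cover_uni {ε A κ C R0 : ℝ} (hA : 2 ≤ A) (hκ0 : 0 < κ) (hκ : κ ≤ 1 / 45)
    (hA120 : A ^ (1 + κ) < 120) (hS : SuperLU ε A C R0) :
    ∃ R a1 : ℝ, 1 ≤ R ∧ ∀ q : ℝ, 0 ≤ q → q ≤ 1 → ∀ a0 : ℝ, a1 ≤ a0 → 1 ≤ a0 → R ≤ a0 ^ κ →
      StL q ε a0 (R * a0) (R * a0) →
      ∀ t : ℝ, a0 ≤ t → ∃ a : ℝ, a ≤ t ∧ t ≤ A * a ∧ a0 ≤ a ∧
        StL q ε a (R / a0 ^ κ * a ^ (1 + κ)) (R / a0 ^ κ * a ^ (1 + κ)) := by
  set g : ℝ := 120 - A ^ (1 + κ) with hg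
  have hg0 : 0 < g := by rw [hg]; linarith
  set R : ℝ := max (max R0 (C / g)) 1 with hR
  have hR1 : 1 ≤ R := le_max_right _ _
  have hRR0 : R0 ≤ R := (le_max_left _ _).trans (le_max_left _ _)
  have hRC : C / g ≤ R := (le_max_right _ _).trans (le_max_left _ _)
  obtain ⟨a1, ha1⟩ := Filter.eventually_atTop.1 hS
  refine ⟨R, a1, hR1, fun q hq0 hq1 a0 ha01 ha0g hRa0 hb0 => ?_⟩
  have ha0 : 0 < a0 := by linarith
  have ha0κ : 0 < a0 ^ κ := Real.rpow_pos_of_pos ha0 _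
  set c : ℝ := R / a0 ^ κ with hc
  have hc0 : 0 < c := by positivity
  have hc1 : c ≤ 1 := (div_le_one ha0κ).2 hRa0
  have hcR : c * a0 ^ κ = R := div_mul_cancel₀ _ ha0κ.ne'
  have hf : ∀ a : ℝ, a0 ≤ a → c * a ^ (1 + κ) = c * a ^ κ * a := fun a ha => by
    rw [Real.rpow_one_add' (by linarith) (by linarith)]; ring
  have hfR : ∀ a : ℝ, a0 ≤ a → R * a ≤ c * a ^ (1 + κ) := fun a ha => by
    rw [hf a ha, ← hcR]
    have : a0 ^ κ ≤ a ^ κ := Real.rpow_le_rpow ha0.le ha hκ0.le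
    have ha' : 0 ≤ a := by linarith
    gcongr
  -- base
  have hbase0 : StL q ε a0 (c * a0 ^ (1 + κ)) (c * a0 ^ (1 + κ)) := by
    rw [hf a0 le_rfl, hcR]; exact hb0
  -- step
  have hstep : ∀ a : ℝ, a0 ≤ a → StL q ε a (c * a ^ (1 + κ)) (c * a ^ (1 + κ)) →
      ∃ a' : ℝ, 2 * a ≤ a' ∧ a' ≤ A * a ∧ StL q ε a' (c * a' ^ (1 + κ)) (c * a' ^ (1 + κ)) := by
    intro a ha hSt
    have hapos : 0 < a := by linarith
    have hRa := hfR a ha
    obtain ⟨a', h1, h2, h3⟩ := ha1 a (by linarith) q hq0 hq1 _ hSt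
      ((mul_le_mul_of_nonneg_right hRR0 hapos.le).trans hRa) (by
        have h4 : a ^ (1 + κ) ≤ a ^ (1 + 1 / 45 : ℝ) :=
          Real.rpow_le_rpow_of_exponent_le (by linarith) (by linarith)
        calc c * a ^ (1 + κ) ≤ 1 * a ^ (1 + κ) :=
              mul_le_mul_of_nonneg_right hc1 (Real.rpow_nonneg hapos.le _)
          _ = a ^ (1 + κ) := one_mul _
          _ ≤ _ := h4)
    have h5 : c * a' ^ (1 + κ) ≤ 120 * (c * a ^ (1 + κ)) - C * a := by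
      have h6 : a' ^ (1 + κ) ≤ A ^ (1 + κ) * a ^ (1 + κ) := by
        rw [← Real.mul_rpow (by linarith) hapos.le]
        exact Real.rpow_le_rpow (by linarith) h2 (by linarith)
      have h7 : c * a' ^ (1 + κ) ≤ A ^ (1 + κ) * (c * a ^ (1 + κ)) := by
        calc c * a' ^ (1 + κ) ≤ c * (A ^ (1 + κ) * a ^ (1 + κ)) :=
              mul_le_mul_of_nonneg_left h6 hc0.le
          _ = _ := by ring
      have h8 : C * a ≤ g * (c * a ^ (1 + κ)) := by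
        have h9 : C ≤ g * R := by
          rw [div_le_iff₀ hg0] at hRC; linarith
        calc C * a ≤ g * R * a := mul_le_mul_of_nonneg_right h9 hapos.le
          _ = g * (R * a) := by ring
          _ ≤ _ := mul_le_mul_of_nonneg_left hRa hg0.le
      have h10 : g * (c * a ^ (1 + κ)) = 120 * (c * a ^ (1 + κ)) -
          A ^ (1 + κ) * (c * a ^ (1 + κ)) := by rw [hg]; ring
      linarith
    exact ⟨a', h1, h2, h3.mono h5 h5⟩
  intro t ht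
  by_contra hcon
  push Not at hcon
  have hind : ∀ j : ℕ, ∃ a : ℝ, 2 ^ j * a0 ≤ a ∧ a ≤ t ∧
      StL q ε a (c * a ^ (1 + κ)) (c * a ^ (1 + κ)) := by
    intro j
    induction j with
    | zero => exact ⟨a0, by simp, ht, hbase0⟩
    | succ j ih =>
      obtain ⟨a, h1, h2, h3⟩ := ih
      have h2j : (1:ℝ) ≤ 2 ^ j := one_le_pow₀ (by norm_num)
      have ha : a0 ≤ a := by nlinarith
      have hlt : ¬ (t ≤ A * a) := fun h => hcon a h2 h ha h3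
      obtain ⟨a', g1, g2, g3⟩ := hstep a ha h3
      refine ⟨a', ?_, ?_, g3⟩
      · rw [pow_succ]; linarith
      · linarith
  obtain ⟨j, hj⟩ := pow_unbounded_of_one_lt t (one_lt_two (α := ℝ))
  obtain ⟨a, h1, h2, _⟩ := hind j
  have : (2:ℝ) ^ j * 1 ≤ 2 ^ j * a0 := mul_le_mul_of_nonneg_left ha0g (by positivity)
  linarith

/-- **Uniform lower bound from the uniform round.** -/
theorem T_of_round_uni {ε C R0 : ℝ} (hε : 0 < ε) (hε1 : ε ≤ 1 / 2) (hC : 0 ≤ C) (hR0 : 0 ≤ R0)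
    (h : RoundU ε (1 / 50) C R0) : ∃ c : ℝ, 0 < c ∧ ∃ n0 : ℕ, ∀ n : ℕ, n0 ≤ n → ∀ q : I,
      (Real.log n) ^ (-c) ≤ (q : ℝ) →
        (⌈Real.exp (Real.log n ^ (1 + 1 / 50 : ℝ))⌉₊ : ℕ∞) ≤ T q n := by
  obtain ⟨R, a1, hR1, hcov⟩ := cover_uni (κ := 1 / 48) (by norm_num) (by norm_num) (by norm_num)
    num_A (SuperLU.of_round hC hR0 hε hε1 h.log)
  obtain ⟨Cb, hCb1, hbase⟩ := base_uni ε R hε.le
  obtain ⟨aT, haT⟩ := Filter.eventually_atTop.1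
    (Real.tendsto_exp_atTop.eventually (St_T_uni ε hε1))
  set c : ℝ := 1 / (100 * Cb) with hc
  have hc0 : 0 < c := by positivity
  refine ⟨c, hc0, ?_⟩
  have hlog : Tendsto (fun n : ℕ => Real.log (n : ℝ)) atTop atTop :=
    Real.tendsto_log_atTop.comp tendsto_natCast_atTop_atTop
  -- constant of the numerics
  set c1 : ℝ := R / (Cb ^ (1 / 48 : ℝ) * (2 * (1083 / 10)) ^ (1 + 1 / 48 : ℝ)) with hc1
  have hc10 : 0 < c1 := by positivity
  have ev1 : ∀ᶠ x : ℝ in atTop, x ^ (1 + 1 / 50 : ℝ) + 2 ≤ c1 * x ^ (1 + 49 / 2400 : ℝ) := by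
    filter_upwards [MA.ev_pow_le (2 / c1) (1 + 1 / 50) (1 + 49 / 2400) (by norm_num),
      MA.ev_pow_le (4 / c1) 0 (1 + 49 / 2400) (by norm_num)] with x g1 g2
    rw [Real.rpow_zero, mul_one] at g2
    have g3 : 2 * x ^ (1 + 1 / 50 : ℝ) ≤ c1 * x ^ (1 + 49 / 2400 : ℝ) := by
      have := mul_le_mul_of_nonneg_left g1 hc10.le
      rwa [← mul_assoc, mul_div_cancel₀ _ hc10.ne'] at this
    have g4 : 4 ≤ c1 * x ^ (1 + 49 / 2400 : ℝ) := by
      have := mul_le_mul_of_nonneg_left g2 hc10.le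
      rwa [mul_div_cancel₀ _ hc10.ne'] at this
    linarith
  have ev2 : ∀ᶠ x : ℝ in atTop, Cb ^ Cb * x ^ (1 / 100 : ℝ) ≤ x ^ (1 / 50 : ℝ) :=
    MA.ev_pow_le _ _ _ (by norm_num)
  have ev3 : ∀ᶠ x : ℝ in atTop, max a1 1 ≤ x ^ (1 / 50 : ℝ) :=
    (tendsto_rpow_atTop (by norm_num)).eventually_ge_atTop _
  have ev4 : ∀ᶠ x : ℝ in atTop, R ≤ (x ^ (1 / 50 : ℝ)) ^ (1 / 48 : ℝ) :=
    ((tendsto_rpow_atTop (by norm_num)).comp
      (tendsto_rpow_atTop (by norm_num))).eventually_ge_atTop _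
  have ev5 : ∀ᶠ x : ℝ in atTop, 2 * Cb * x ^ (1 / 50 : ℝ) ≤ x ^ (1 : ℝ) :=
    MA.ev_pow_le _ _ _ (by norm_num)
  have ev6 : ∀ᶠ x : ℝ in atTop, (2:ℝ) ≤ x ^ c := (tendsto_rpow_atTop hc0).eventually_ge_atTop _
  suffices hs : ∀ᶠ n : ℕ in atTop, ∀ q : I, (Real.log n) ^ (-c) ≤ (q : ℝ) →
      (⌈Real.exp (Real.log n ^ (1 + 1 / 50 : ℝ))⌉₊ : ℕ∞) ≤ T q n from
    eventually_atTop.mp hs
  filter_upwards [hlog.eventually ev1, hlog.eventually ev2, hlog.eventually ev3,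
    hlog.eventually ev4, hlog.eventually ev5, hlog.eventually ev6,
    hlog.eventually_ge_atTop (2 * (1083 / 10) * aT), hlog.eventually_ge_atTop 1,
    eventually_ge_atTop 1] with n g1 g2 g3 g4 g5 g6 g7 g8 hn1 q hq
  set L : ℝ := Real.log (n : ℝ) with hL
  have hL0 : 0 < L := by linarith
  rw [Real.rpow_one] at g5
  -- reduce to q₁ = L^(-c)
  have hq1pos : 0 < L ^ (-c) := Real.rpow_pos_of_pos hL0 _
  have hq1half : L ^ (-c) ≤ 1 / 2 := by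
    rw [Real.rpow_neg hL0.le, one_div]
    exact inv_anti₀ (by norm_num) g6
  set q₁ : I := ⟨L ^ (-c), hq1pos.le, by linarith⟩ with hq₁
  refine le_trans ?_ (R3.H101.T_mono_q (q := q₁) (q' := q) hq n)
  -- base
  have hq1v : (q₁ : ℝ) = L ^ (-c) := rfl
  have hbq : (Cb / (q₁ : ℝ)) ^ Cb ≤ L ^ (1 / 50 : ℝ) := by
    rw [hq1v, Real.rpow_neg hL0.le, div_inv_eq_mul, Real.mul_rpow (by linarith) (by positivity),
      ← Real.rpow_mul hL0.le]
    have : c * Cb = 1 / 100 := by rw [hc]; field_simp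
    rw [this]
    exact g2
  obtain ⟨a0, ha0l, ha0u, hSt0⟩ := hbase (q₁ : ℝ) hq1pos hq1half _ hbq
  have h13 : a1 ≤ L ^ (1 / 50 : ℝ) := (le_max_left _ _).trans g3
  have h14 : 1 ≤ L ^ (1 / 50 : ℝ) := (le_max_right _ _).trans g3
  have ha01 : 1 ≤ a0 := h14.trans ha0l
  have ha0p : 0 < a0 := by linarith
  have ha0L : a0 ≤ L / 2 := by linarith
  obtain ⟨a, b1, b2, b3, u, v, hS⟩ := hcov (q₁ : ℝ) hq1pos.le (by linarith) a0
    (h13.trans ha0l) ha01 (g4.trans (Real.rpow_le_rpow (by positivity) ha0l (by norm_num)))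
    hSt0 (L / 2) ha0L
  have hn' : (0:ℝ) < n := by exact_mod_cast hn1
  have hsz : Real.exp a ^ (2 : ℝ) ≤ n := by
    rw [← Real.exp_mul]
    calc Real.exp (a * 2) ≤ Real.exp L := Real.exp_le_exp.2 (by linarith)
      _ = n := Real.exp_log hn'
  have haL : L ≤ 2 * (1083 / 10) * a := by linarith
  have haaT : aT ≤ a := by linarith
  have hapos : 0 < a := by linarith
  unfold T
  refine le_iInf₂ fun m hm => ?_
  have key := haT a haaT q₁ _ _ u v hS n hsz m hm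
  set ca : ℝ := R / a0 ^ (1 / 48 : ℝ) * a ^ (1 + 1 / 48 : ℝ) with hca
  have hfin : Real.exp (L ^ (1 + 1 / 50 : ℝ)) ≤ m := by
    have e1 : c1 * L ^ (1 + 49 / 2400 : ℝ) ≤ ca := by
      have f1 : a0 ^ (1 / 48 : ℝ) ≤ Cb ^ (1 / 48 : ℝ) * L ^ (1 / 2400 : ℝ) := by
        calc a0 ^ (1 / 48 : ℝ) ≤ (Cb * L ^ (1 / 50 : ℝ)) ^ (1 / 48 : ℝ) :=
              Real.rpow_le_rpow ha0p.le ha0u (by norm_num)
          _ = _ := by
              rw [Real.mul_rpow (by linarith) (by positivity), ← Real.rpow_mul hL0.le]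
              norm_num
      have f2 : L ^ (1 + 1 / 48 : ℝ) ≤ (2 * (1083 / 10)) ^ (1 + 1 / 48 : ℝ) *
          a ^ (1 + 1 / 48 : ℝ) := by
        rw [← Real.mul_rpow (by norm_num) hapos.le]
        exact Real.rpow_le_rpow hL0.le haL (by norm_num)
      have f3 : L ^ (1 + 49 / 2400 : ℝ) * L ^ (1 / 2400 : ℝ) = L ^ (1 + 1 / 48 : ℝ) := by
        rw [← Real.rpow_add hL0]; norm_num
      have hd1 : 0 < a0 ^ (1 / 48 : ℝ) := Real.rpow_pos_of_pos ha0p _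
      have hd2 : 0 < Cb ^ (1 / 48 : ℝ) * (2 * (1083 / 10)) ^ (1 + 1 / 48 : ℝ) := by positivity
      rw [hc1, hca, div_mul_eq_mul_div, div_mul_eq_mul_div, div_le_div_iff₀ hd2 hd1]
      have hR0' : 0 < R := by linarith
      have f4 : L ^ (1 + 49 / 2400 : ℝ) * a0 ^ (1 / 48 : ℝ) ≤
          a ^ (1 + 1 / 48 : ℝ) * (Cb ^ (1 / 48 : ℝ) * (2 * (1083 / 10)) ^ (1 + 1 / 48 : ℝ)) := by
        calc L ^ (1 + 49 / 2400 : ℝ) * a0 ^ (1 / 48 : ℝ)
            ≤ L ^ (1 + 49 / 2400 : ℝ) * (Cb ^ (1 / 48 : ℝ) * L ^ (1 / 2400 : ℝ)) := by gcongr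
          _ = Cb ^ (1 / 48 : ℝ) * L ^ (1 + 1 / 48 : ℝ) := by rw [← f3]; ring
          _ ≤ Cb ^ (1 / 48 : ℝ) * ((2 * (1083 / 10)) ^ (1 + 1 / 48 : ℝ) *
                a ^ (1 + 1 / 48 : ℝ)) := by gcongr
          _ = _ := by ring
      calc R * L ^ (1 + 49 / 2400 : ℝ) * a0 ^ (1 / 48 : ℝ)
          = R * (L ^ (1 + 49 / 2400 : ℝ) * a0 ^ (1 / 48 : ℝ)) := by ring
        _ ≤ R * (a ^ (1 + 1 / 48 : ℝ) *
              (Cb ^ (1 / 48 : ℝ) * (2 * (1083 / 10)) ^ (1 + 1 / 48 : ℝ))) := by gcongr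
        _ = _ := by ring
    have e3 : Real.exp (L ^ (1 + 1 / 50 : ℝ)) * 3 ≤ Real.exp ca := by
      have e4 : (3:ℝ) ≤ Real.exp 2 := by
        have := Real.add_one_le_exp (2:ℝ); linarith
      calc Real.exp (L ^ (1 + 1 / 50 : ℝ)) * 3
          ≤ Real.exp (L ^ (1 + 1 / 50 : ℝ)) * Real.exp 2 := by gcongr
        _ = Real.exp (L ^ (1 + 1 / 50 : ℝ) + 2) := (Real.exp_add _ _).symm
        _ ≤ _ := Real.exp_le_exp.2 (by linarith)
    have e5 : Real.exp ca ≤ 3 * m := by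
      have := mul_le_mul_of_nonneg_right key (Real.exp_pos ca).le
      rw [one_mul, mul_assoc, ← Real.exp_add, neg_add_cancel, Real.exp_zero, mul_one] at this
      exact this
    linarith
  exact_mod_cast Nat.ceil_le.2 hfin

end Vale.Agent.P321.LB2
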